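import Vale.Agent.P015.R2.H222.Quad

namespace Vale.Agent.P015.H222

open Finset Vale.Agent.P001 Vale.Agent.P006.CLS
open scoped ComplexConjugate Pointwise

/-- image of `W` under the linear form modulo `p` -/
def im (r : ℕ → ℤ) (W : Finset (ℤ × ℤ)) (p : ℕ) : Finset (ZMod p) :=
  W.image (fun w => ((lf (r p) w : ℤ) : ZMod p))

theorem hat_eq_hg (r : ℕ → ℤ) (W : Finset (ℤ × ℤ)) (θ : Σ _ : ℕ, ℕ) :
    hat r W θ = hg W (fx θ) (fy r θ) := rfl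

theorem miss_one {r : ℕ → ℤ} {W W' : Finset (ℤ × ℤ)} {p : ℕ} (hp : 0 < p) (hW : W' ⊆ W)
    {δ : ℝ} (hδ : 0 ≤ δ)
    (hm : ((im r W p).card : ℝ) ≤ (1 - δ) * p) :
    δ * (W'.card : ℝ) ^ 2 ≤ ∑ a ∈ Icc 1 (p - 1), ‖hat r W' ⟨p, a⟩‖ ^ 2 := by
  rcases W'.eq_empty_or_nonempty with h | h
  · subst h
    simp only [Finset.card_empty, Nat.cast_zero, ne_eq, OfNat.ofNat_ne_zero, not_false_eq_true,
      zero_pow, mul_zero]
    exact Finset.sum_nonneg (fun _ _ => by positivity)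
  · have hν : 0 < (im r W' p).card := by
      rw [Finset.card_pos]; exact h.image _
    refine le_trans ?_ (parseval_hat hp hν le_rfl)
    refine mul_le_mul_of_nonneg_right ?_ (by positivity)
    have h1 : (im r W' p).card ≤ (im r W p).card := Finset.card_le_card (Finset.image_subset_image hW)
    have h2 : ((im r W' p).card : ℝ) ≤ (1 - δ) * p := le_trans (by exact_mod_cast h1) hm
    have h3 : (0 : ℝ) < ((im r W' p).card : ℝ) := by exact_mod_cast hν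
    have hp' : (0 : ℝ) < p := by exact_mod_cast hp
    rw [le_sub_iff_add_le, le_div_iff₀ h3]
    nlinarith [mul_nonneg hδ (sub_nonneg.mpr h2), sq_nonneg δ, mul_nonneg (sq_nonneg δ) hp'.le]

theorem miss_sum {r : ℕ → ℤ} {P : Finset ℕ} (hP : Rts r P) {W W' : Finset (ℤ × ℤ)} (hW : W' ⊆ W)
    {δ : ℝ} (hδ : 0 ≤ δ) (hm : ∀ p ∈ P, ((im r W p).card : ℝ) ≤ (1 - δ) * p) :
    δ * P.card * (W'.card : ℝ) ^ 2 ≤ ∑ θ ∈ R1 P, ‖hg W' (fx θ) (fy r θ)‖ ^ 2 := by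
  rw [R1, Finset.sum_sigma]
  calc δ * P.card * (W'.card : ℝ) ^ 2 = ∑ p ∈ P, δ * (W'.card : ℝ) ^ 2 := by
        rw [Finset.sum_const, nsmul_eq_mul]; ring
    _ ≤ ∑ p ∈ P, ∑ a ∈ Icc 1 (p - 1), ‖hat r W' ⟨p, a⟩‖ ^ 2 :=
        Finset.sum_le_sum (fun p hp => miss_one (hP p hp).1.pos hW hδ (hm p hp))

theorem ls_R1 {r : ℕ → ℤ} {P : Finset ℕ} (hP : Rts r P) {Q : ℕ} (hQ : ∀ p ∈ P, p ≤ Q)
    (hQ1 : 1 ≤ Q) (L : ℕ) (n₀ : ℤ × ℤ) (T : Finset (ℤ × ℤ))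
    (hT : ∀ w ∈ T, w - n₀ ∈ box L) (c : ℤ × ℤ → ℂ) :
    ∑ θ ∈ R1 P, ‖∑ w ∈ T, c w * e2 (fx θ) (fy r θ) w‖ ^ 2
      ≤ C0 * ((L : ℝ) + 2 * Q) ^ 2 * ∑ w ∈ T, ‖c w‖ ^ 2 := by
  have hQ0 : (1 : ℝ) ≤ Q := by exact_mod_cast hQ1
  have h := primal_ls (R1 P) fx (fy r) (δ := 1 / (2 * Q)) (by positivity)
    (by rw [div_le_one (by positivity)]; linarith) (sep_R1 hP hQ hQ1) L n₀ T hT c
  rwa [one_div_one_div] at h

/-- step (a) -/
theorem local_upper {r : ℕ → ℤ} {P : Finset ℕ} (hP : Rts r P) {Q : ℕ} (hQ : ∀ p ∈ P, p ≤ Q)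
    (hQ1 : 1 ≤ Q) {δ η : ℝ} (hδ : 0 < δ) (hη : 0 < η) (hPc : η * Q ≤ P.card)
    {W : Finset (ℤ × ℤ)} (hm : ∀ p ∈ P, ((im r W p).card : ℝ) ≤ (1 - δ) * p)
    {M : ℕ} (hM : M ≤ Q) (z : ℤ × ℤ) :
    ((W.filter (fun w => w - z ∈ box M)).card : ℝ) ≤ 9 * C0 * Q / (δ * η) := by
  have hC0 := one_le_C0
  have hQ0 : (1 : ℝ) ≤ Q := by exact_mod_cast hQ1
  have hMQ : (M : ℝ) ≤ Q := by exact_mod_cast hM
  have hM0 : (0 : ℝ) ≤ M := Nat.cast_nonneg M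
  set W' := W.filter (fun w => w - z ∈ box M) with hW'
  have h1 := miss_sum hP (Finset.filter_subset _ _ : W' ⊆ W) hδ.le hm
  have h2 := ls_R1 hP hQ hQ1 M z W' (fun w hw => (Finset.mem_filter.mp hw).2) (fun _ => 1)
  simp only [one_mul, norm_one, one_pow, Finset.sum_const, nsmul_eq_mul, mul_one] at h2
  have h3 : δ * P.card * (W'.card : ℝ) ^ 2 ≤ C0 * ((M : ℝ) + 2 * Q) ^ 2 * W'.card := h1.trans h2
  rw [le_div_iff₀ (by positivity)]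
  rcases Nat.eq_zero_or_pos W'.card with h | h
  · rw [h]; simp only [Nat.cast_zero, zero_mul]; positivity
  · have hc : (0 : ℝ) < W'.card := by exact_mod_cast h
    have h4 : δ * P.card * (W'.card : ℝ) ≤ C0 * ((M : ℝ) + 2 * Q) ^ 2 := by
      apply le_of_mul_le_mul_right _ hc
      linarith only [h3]
    have h5 : C0 * ((M : ℝ) + 2 * Q) ^ 2 ≤ C0 * (3 * Q) ^ 2 := by
      apply mul_le_mul_of_nonneg_left _ (by linarith)
      apply pow_le_pow_left₀ (by positivity)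
      linarith
    have h6 : δ * (η * Q) * W'.card ≤ δ * P.card * (W'.card : ℝ) := by
      apply mul_le_mul_of_nonneg_right _ hc.le
      exact mul_le_mul_of_nonneg_left hPc hδ.le
    have h7 : (W'.card * (δ * η)) * Q ≤ (9 * C0 * Q) * Q := by nlinarith only [h4, h5, h6]
    exact le_of_mul_le_mul_right h7 (by linarith)

/-- the square `[0, M)²` -/
noncomputable def sq2 (M : ℕ) : Finset (ℤ × ℤ) := (Finset.Ico (0 : ℤ) M) ×ˢ (Finset.Ico (0 : ℤ) M)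

theorem card_sq2 (M : ℕ) : ((sq2 M).card : ℝ) = (M : ℝ) ^ 2 := by
  unfold sq2
  rw [Finset.card_product]
  simp [sq]

theorem mem_box {L : ℕ} {w : ℤ × ℤ} :
    w ∈ box L ↔ (-(L : ℤ) ≤ w.1 ∧ w.1 ≤ L) ∧ (-(L : ℤ) ≤ w.2 ∧ w.2 ≤ L) := by
  unfold Vale.Agent.P006.CLS.box
  rw [Finset.mem_product, Finset.mem_Icc, Finset.mem_Icc]

theorem sq2_box {M : ℕ} {w : ℤ × ℤ} (h : w ∈ sq2 M) : w ∈ box M := by
  unfold sq2 at h
  rw [Finset.mem_product, Finset.mem_Ico, Finset.mem_Ico] at h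
  rw [mem_box]
  omega

theorem row_diff {r : ℕ → ℤ} {P : Finset ℕ} (hP : Rts r P) {Q : ℕ} (hQ : ∀ p ∈ P, p ≤ Q)
    (hQ1 : 1 ≤ Q) {M : ℕ} (hM : M ≤ Q) (x y : ℝ) :
    ∑ θ ∈ R1 P, ‖hg (sq2 M) (x - fx θ) (y - fy r θ)‖ ^ 2 ≤ 9 * C0 * (Q : ℝ) ^ 2 * (M : ℝ) ^ 2 := by
  have hC0 := one_le_C0
  have hMQ : (M : ℝ) ≤ Q := by exact_mod_cast hM
  have hM0 : (0 : ℝ) ≤ M := Nat.cast_nonneg M
  have h := ls_R1 hP hQ hQ1 M 0 (sq2 M) (fun w hw => by rw [sub_zero]; exact sq2_box hw)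
    (fun w => conj (e2 x y w))
  simp only [Complex.norm_conj, norm_e2, one_pow, Finset.sum_const, nsmul_eq_mul, mul_one] at h
  rw [card_sq2] at h
  have h1 : ∑ θ ∈ R1 P, ‖hg (sq2 M) (x - fx θ) (y - fy r θ)‖ ^ 2
      = ∑ θ ∈ R1 P, ‖∑ w ∈ sq2 M, conj (e2 x y w) * e2 (fx θ) (fy r θ) w‖ ^ 2 := by
    refine Finset.sum_congr rfl (fun θ _ => ?_)
    rw [norm_hg_symm, hg]
    congr 2
    refine Finset.sum_congr rfl (fun w _ => ?_)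
    rw [e2_sub_freq, mul_comm]
  rw [h1]
  refine h.trans ?_
  have h2 : ((M : ℝ) + 2 * Q) ^ 2 ≤ 9 * (Q : ℝ) ^ 2 := by nlinarith
  have h3 : C0 * ((M : ℝ) + 2 * Q) ^ 2 * (M : ℝ) ^ 2 ≤ C0 * (9 * (Q : ℝ) ^ 2) * (M : ℝ) ^ 2 := by
    apply mul_le_mul_of_nonneg_right _ (by positivity)
    exact mul_le_mul_of_nonneg_left h2 (by linarith)
  linarith only [h3]

/-- the same-prime kernel -/
noncomputable def ker (r : ℕ → ℤ) (M : ℕ) (θ θ' : Σ _ : ℕ, ℕ) : ℝ :=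
  if θ.1 = θ'.1 then ‖hg (sq2 M) (fx θ - fx θ') (fy r θ - fy r θ')‖ ^ 2 else 0

theorem ker_nonneg (r : ℕ → ℤ) (M : ℕ) (θ θ' : Σ _ : ℕ, ℕ) : 0 ≤ ker r M θ θ' := by
  rw [ker]; split_ifs <;> positivity

theorem ker_symm (r : ℕ → ℤ) (M : ℕ) (θ θ' : Σ _ : ℕ, ℕ) : ker r M θ θ' = ker r M θ' θ := by
  rw [ker, ker, norm_hg_symm]
  by_cases h : θ.1 = θ'.1
  · rw [if_pos h, if_pos h.symm]
  · rw [if_neg h, if_neg (fun h' => h h'.symm)]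

theorem row_same {r : ℕ → ℤ} {P : Finset ℕ} (hP : Rts r P) {Q : ℕ} (hQ : ∀ p ∈ P, p ≤ Q)
    {M : ℕ} (hM : 2 * Q ≤ M ^ 2) (hM1 : 1 ≤ M) {θ : Σ _ : ℕ, ℕ} (hθ : θ ∈ R1 P) :
    ∑ θ' ∈ R1 P, ker r M θ θ' ≤ 4 * C0 * (M : ℝ) ^ 4 := by
  have hp : θ.1 ∈ P := (mem_R1.mp hθ).1
  have hM0 : (1 : ℝ) ≤ M := by exact_mod_cast hM1
  have h2 : 2 * (1 / (M : ℝ)) ^ 2 * θ.1 ≤ 1 := by
    rw [div_pow, one_pow, mul_one_div, div_mul_eq_mul_div, div_le_one (by positivity)]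
    have h3 : 2 * θ.1 ≤ M ^ 2 := le_trans (Nat.mul_le_mul_left 2 (hQ _ hp)) hM
    exact_mod_cast h3
  have hr : Rts r {θ.1} := fun q hq => by rw [Finset.mem_singleton] at hq; rw [hq]; exact hP _ hp
  have h := primal_ls (range θ.1) _ _ (δ := 1 / (M : ℝ)) (by positivity)
    (by rw [div_le_one (by positivity)]; exact hM0)
    (sep_one hr h2 (fx θ) (fy r θ)) M 0 (sq2 M) (fun w hw => by rw [sub_zero]; exact sq2_box hw)
    (fun _ => 1)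
  simp only [one_mul, norm_one, one_pow, Finset.sum_const, nsmul_eq_mul, mul_one,
    one_div_one_div] at h
  rw [card_sq2] at h
  rw [R1, Finset.sum_sigma, Finset.sum_eq_single θ.1]
  · calc ∑ a ∈ Icc 1 (θ.1 - 1), ker r M θ ⟨θ.1, a⟩
        = ∑ a ∈ Icc 1 (θ.1 - 1), ‖∑ w ∈ sq2 M, e2 ((a : ℝ) / θ.1 - fx θ)
            ((a : ℝ) * r θ.1 / θ.1 - fy r θ) w‖ ^ 2 := by
          refine Finset.sum_congr rfl (fun a _ => ?_)
          rw [ker, if_pos rfl, norm_hg_symm]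
          rfl
      _ ≤ ∑ a ∈ range θ.1, ‖∑ w ∈ sq2 M, e2 ((a : ℝ) / θ.1 - fx θ)
            ((a : ℝ) * r θ.1 / θ.1 - fy r θ) w‖ ^ 2 := by
          apply Finset.sum_le_sum_of_subset_of_nonneg
          · intro a ha
            rw [Finset.mem_Icc] at ha
            rw [Finset.mem_range]
            omega
          · intro _ _ _; positivity
      _ ≤ _ := h
      _ = _ := by ring
  · intro p _ hpne
    refine Finset.sum_eq_zero (fun a _ => ?_)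
    rw [ker, if_neg (fun h => hpne h.symm)]
  · intro h; exact absurd hp h

theorem box_symm {L : ℕ} {u v : ℤ × ℤ} (h : u - v ∈ box L) : v - u ∈ box L := by
  rw [mem_box] at *
  simp only [Prod.fst_sub, Prod.snd_sub] at *
  omega

theorem count_lower {W : Finset (ℤ × ℤ)} {M L : ℕ} (hL : L ≤ M) {c : ℝ} {w : ℤ × ℤ}
    (hc : c ≤ ((W.filter (fun u => u - w ∈ box L)).card : ℝ)) :
    c * ((M : ℝ) - L) ^ 2 ≤ (((W ×ˢ (sq2 M ×ˢ sq2 M)).filter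
      (fun q => q.1 + q.2.1 - q.2.2 = w)).card : ℝ) := by
  have h1 : (((W ×ˢ (sq2 M ×ˢ sq2 M)).filter (fun q => q.1 + q.2.1 - q.2.2 = w)).card : ℝ)
      = ∑ u ∈ W, (((sq2 M ×ˢ sq2 M).filter (fun p => p.1 - p.2 = w - u)).card : ℝ) := by
    rw [Finset.card_filter]
    push_cast
    rw [Finset.sum_product]
    refine Finset.sum_congr rfl (fun u _ => ?_)
    rw [Finset.card_filter]
    push_cast
    refine Finset.sum_congr rfl (fun p _ => ?_)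
    have : (u + p.1 - p.2 = w) ↔ (p.1 - p.2 = w - u) := by
      constructor
      · intro h; rw [← h]; abel
      · intro h
        have : u + p.1 - p.2 = u + (p.1 - p.2) := by abel
        rw [this, h]; abel
    simp only [this]
  rw [h1]
  calc c * ((M : ℝ) - L) ^ 2
      ≤ ((W.filter (fun u => u - w ∈ box L)).card : ℝ) * ((M : ℝ) - L) ^ 2 :=
        mul_le_mul_of_nonneg_right hc (by positivity)
    _ = ∑ u ∈ W.filter (fun u => u - w ∈ box L), ((M : ℝ) - L) ^ 2 := by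
        rw [Finset.sum_const, nsmul_eq_mul]
    _ ≤ ∑ u ∈ W.filter (fun u => u - w ∈ box L),
          (((sq2 M ×ˢ sq2 M).filter (fun p => p.1 - p.2 = w - u)).card : ℝ) := by
        refine Finset.sum_le_sum (fun u hu => ?_)
        exact card_diff2_ge M L hL _ (box_symm (Finset.mem_filter.mp hu).2)
    _ ≤ _ := by
        apply Finset.sum_le_sum_of_subset_of_nonneg (Finset.filter_subset _ _)
        intro _ _ _; positivity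

/-- norm of the exponential sum at a frequency -/
noncomputable def nf (r : ℕ → ℤ) (W : Finset (ℤ × ℤ)) (θ : Σ _ : ℕ, ℕ) : ℝ :=
  ‖hg W (fx θ) (fy r θ)‖

/-- norm of the exponential sum at a difference of frequencies -/
noncomputable def nd (r : ℕ → ℤ) (W : Finset (ℤ × ℤ)) (θ θ' : Σ _ : ℕ, ℕ) : ℝ :=
  ‖hg W (fx θ - fx θ') (fy r θ - fy r θ')‖

theorem nd_symm (r : ℕ → ℤ) (W : Finset (ℤ × ℤ)) (θ θ' : Σ _ : ℕ, ℕ) :
    nd r W θ θ' = nd r W θ' θ := norm_hg_symm _ _ _ _ _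

theorem nf_nonneg (r : ℕ → ℤ) (W : Finset (ℤ × ℤ)) (θ : Σ _ : ℕ, ℕ) : 0 ≤ nf r W θ :=
  norm_nonneg _

theorem nd_nonneg (r : ℕ → ℤ) (W : Finset (ℤ × ℤ)) (θ θ' : Σ _ : ℕ, ℕ) : 0 ≤ nd r W θ θ' :=
  norm_nonneg _

theorem sq_le_card (R : Finset (Σ _ : ℕ, ℕ)) (r : ℕ → ℤ) (W : Finset (ℤ × ℤ))
    (b : (Σ _ : ℕ, ℕ) → ℂ) {T : ℝ} (hT : (T : ℂ) = ∑ θ ∈ R, b θ * hg W (fx θ) (fy r θ)) :
    T ^ 2 ≤ W.card * ∑ w ∈ W, ‖∑ θ ∈ R, b θ * e2 (fx θ) (fy r θ) w‖ ^ 2 := by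
  have h1 : (T : ℂ) = ∑ w ∈ W, ∑ θ ∈ R, b θ * e2 (fx θ) (fy r θ) w := by
    rw [hT, Finset.sum_comm]
    refine Finset.sum_congr rfl (fun θ _ => ?_)
    rw [hg, Finset.mul_sum]
  have h2 : |T| ≤ ∑ w ∈ W, ‖∑ θ ∈ R, b θ * e2 (fx θ) (fy r θ) w‖ := by
    have h3 : |T| = ‖(T : ℂ)‖ := by rw [Complex.norm_real, Real.norm_eq_abs]
    rw [h3, h1]
    exact norm_sum_le _ _
  calc T ^ 2 = |T| ^ 2 := (sq_abs T).symm
    _ ≤ (∑ w ∈ W, ‖∑ θ ∈ R, b θ * e2 (fx θ) (fy r θ) w‖) ^ 2 :=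
        pow_le_pow_left₀ (abs_nonneg _) h2 2
    _ ≤ _ := sq_sum_le_card_mul_sum_sq

theorem main1 (R : Finset (Σ _ : ℕ, ℕ)) (r : ℕ → ℤ) {W : Finset (ℤ × ℤ)} {M L : ℕ} (hL : L ≤ M)
    {c : ℝ} (hc : ∀ w ∈ W, c ≤ ((W.filter (fun u => u - w ∈ box L)).card : ℝ)) :
    c * ((M : ℝ) - L) ^ 2 * (∑ θ ∈ R, nf r W θ ^ 2) ^ 2 ≤ W.card * ∑ θ ∈ R, ∑ θ' ∈ R,
      nf r W θ * nf r W θ' * (nd r W θ θ' * nd r (sq2 M) θ θ' ^ 2) := by
  set b : (Σ _ : ℕ, ℕ) → ℂ := fun θ => conj (hg W (fx θ) (fy r θ)) with hb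
  have hT : (((∑ θ ∈ R, nf r W θ ^ 2 : ℝ)) : ℂ) = ∑ θ ∈ R, b θ * hg W (fx θ) (fy r θ) := by
    push_cast
    refine Finset.sum_congr rfl (fun θ _ => ?_)
    have := normsq_eq (hg W (fx θ) (fy r θ))
    push_cast at this
    rw [nf, this, hb, mul_comm]
  have h1 := sq_le_card R r W b hT
  have h2 := fiber_lower W (W ×ˢ (sq2 M ×ˢ sq2 M)) (fun q => q.1 + q.2.1 - q.2.2)
    (fun w => ‖∑ θ ∈ R, b θ * e2 (fx θ) (fy r θ) w‖ ^ 2) (fun w => by positivity)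
    (fun w hw => count_lower hL (hc w hw))
  have h3 := sqexp R fx (fy r) b (W ×ˢ (sq2 M ×ˢ sq2 M)) (fun q => q.1 + q.2.1 - q.2.2)
  have h4 : ∑ i ∈ R, ∑ j ∈ R, ‖b i‖ * ‖b j‖ * ‖∑ z ∈ W ×ˢ (sq2 M ×ˢ sq2 M),
      e2 (fx i - fx j) (fy r i - fy r j) (z.1 + z.2.1 - z.2.2)‖
      = ∑ θ ∈ R, ∑ θ' ∈ R,
      nf r W θ * nf r W θ' * (nd r W θ θ' * nd r (sq2 M) θ θ' ^ 2) := by
    refine Finset.sum_congr rfl (fun θ _ => Finset.sum_congr rfl (fun θ' _ => ?_))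
    rw [sum_triple]
    simp only [hb, Complex.norm_conj]
    rfl
  rw [h4] at h3
  rcases W.eq_empty_or_nonempty with he | he
  · subst he
    have : ∀ θ, nf r ∅ θ = 0 := fun θ => by simp [nf, hg]
    simp [this]
  · have hcn : (0 : ℝ) ≤ (W.card : ℝ) := Nat.cast_nonneg _
    by_cases hc0 : 0 ≤ c
    · calc c * ((M : ℝ) - L) ^ 2 * (∑ θ ∈ R, nf r W θ ^ 2) ^ 2
          ≤ c * ((M : ℝ) - L) ^ 2 * (W.card * ∑ w ∈ W,
              ‖∑ θ ∈ R, b θ * e2 (fx θ) (fy r θ) w‖ ^ 2) :=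
            mul_le_mul_of_nonneg_left h1 (by positivity)
        _ = W.card * (c * ((M : ℝ) - L) ^ 2 * ∑ w ∈ W,
              ‖∑ θ ∈ R, b θ * e2 (fx θ) (fy r θ) w‖ ^ 2) := by ring
        _ ≤ _ := mul_le_mul_of_nonneg_left (h2.trans h3) hcn
    · rw [not_le] at hc0
      have h5 : c * ((M : ℝ) - L) ^ 2 * (∑ θ ∈ R, nf r W θ ^ 2) ^ 2 ≤ 0 := by
        apply mul_nonpos_of_nonpos_of_nonneg _ (by positivity)
        exact mul_nonpos_of_nonpos_of_nonneg hc0.le (by positivity)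
      refine h5.trans ?_
      apply mul_nonneg hcn
      refine Finset.sum_nonneg (fun θ _ => Finset.sum_nonneg (fun θ' _ => ?_))
      have := nf_nonneg r W θ
      have := nf_nonneg r W θ'
      have := nd_nonneg r W θ θ'
      have := nd_nonneg r (sq2 M) θ θ'
      positivity

theorem sum_R2 (P : Finset ℕ) (f : (Σ _ : ℕ, ℕ) → (Σ _ : ℕ, ℕ) → ℝ) :
    ∑ θ ∈ R1 P, ∑ θ' ∈ R1 P, (if θ.1 < θ'.1 then f θ θ' else 0) = ∑ e ∈ R2 P, f e.1 e.2 := by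
  rw [R2, Finset.sum_filter, Finset.sum_product]

theorem main2 (P : Finset ℕ) (r : ℕ → ℤ) (W : Finset (ℤ × ℤ)) (M : ℕ) :
    ∑ θ ∈ R1 P, ∑ θ' ∈ R1 P, nf r W θ * nf r W θ' * (nd r W θ θ' * nd r (sq2 M) θ θ' ^ 2)
      ≤ W.card * (∑ θ ∈ R1 P, ∑ θ' ∈ R1 P, nf r W θ * nf r W θ' * ker r M θ θ')
        + 2 * ∑ e ∈ R2 P, (nf r W e.1 * nf r W e.2 * nd r (sq2 M) e.1 e.2)
          * (nd r W e.1 e.2 * nd r (sq2 M) e.1 e.2) := by
  set f : (Σ _ : ℕ, ℕ) → (Σ _ : ℕ, ℕ) → ℝ := fun θ θ' =>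
    (nf r W θ * nf r W θ' * nd r (sq2 M) θ θ') * (nd r W θ θ' * nd r (sq2 M) θ θ') with hf
  have hf0 : ∀ θ θ', 0 ≤ f θ θ' := by
    intro θ θ'
    have := nf_nonneg r W θ
    have := nf_nonneg r W θ'
    have := nd_nonneg r W θ θ'
    have := nd_nonneg r (sq2 M) θ θ'
    simp only [hf]
    positivity
  have hfs : ∀ θ θ', f θ θ' = f θ' θ := by
    intro θ θ'
    simp only [hf]
    rw [nd_symm r W θ θ', nd_symm r (sq2 M) θ θ']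
    ring
  have h1 : ∀ θ θ', nf r W θ * nf r W θ' * (nd r W θ θ' * nd r (sq2 M) θ θ' ^ 2)
      ≤ W.card * (nf r W θ * nf r W θ' * ker r M θ θ')
        + ((if θ.1 < θ'.1 then f θ θ' else 0) + (if θ'.1 < θ.1 then f θ' θ else 0)) := by
    intro θ θ'
    have e1 : nf r W θ * nf r W θ' * (nd r W θ θ' * nd r (sq2 M) θ θ' ^ 2) = f θ θ' := by
      simp only [hf]; ring
    rcases lt_trichotomy θ.1 θ'.1 with h | h | h
    · rw [e1, if_pos h, if_neg (not_lt.mpr h.le), ker, if_neg h.ne]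
      simp
    · rw [if_neg (by rw [h]; exact lt_irrefl _), if_neg (by rw [h]; exact lt_irrefl _), ker,
        if_pos h, add_zero, add_zero]
      have h2 : nd r W θ θ' ≤ W.card := norm_hg_le _ _ _
      have h3 : 0 ≤ nf r W θ * nf r W θ' * nd r (sq2 M) θ θ' ^ 2 := by
        have := nf_nonneg r W θ
        have := nf_nonneg r W θ'
        positivity
      calc nf r W θ * nf r W θ' * (nd r W θ θ' * nd r (sq2 M) θ θ' ^ 2)
          = nd r W θ θ' * (nf r W θ * nf r W θ' * nd r (sq2 M) θ θ' ^ 2) := by ring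
        _ ≤ W.card * (nf r W θ * nf r W θ' * nd r (sq2 M) θ θ' ^ 2) :=
            mul_le_mul_of_nonneg_right h2 h3
        _ = _ := rfl
    · rw [e1, if_neg (not_lt.mpr h.le), if_pos h, ker, if_neg h.ne', hfs]
      simp
  calc ∑ θ ∈ R1 P, ∑ θ' ∈ R1 P, nf r W θ * nf r W θ' * (nd r W θ θ' * nd r (sq2 M) θ θ' ^ 2)
      ≤ ∑ θ ∈ R1 P, ∑ θ' ∈ R1 P, (W.card * (nf r W θ * nf r W θ' * ker r M θ θ')
        + ((if θ.1 < θ'.1 then f θ θ' else 0) + (if θ'.1 < θ.1 then f θ' θ else 0))) :=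
        Finset.sum_le_sum (fun θ _ => Finset.sum_le_sum (fun θ' _ => h1 θ θ'))
    _ = W.card * (∑ θ ∈ R1 P, ∑ θ' ∈ R1 P, nf r W θ * nf r W θ' * ker r M θ θ')
        + (∑ e ∈ R2 P, f e.1 e.2 + ∑ e ∈ R2 P, f e.1 e.2) := by
        simp_rw [Finset.sum_add_distrib, Finset.mul_sum]
        congr 1
        congr 1
        · exact sum_R2 P f
        · rw [Finset.sum_comm]
          exact sum_R2 P f
    _ = _ := by ring

theorem rr_le {W : Finset (ℤ × ℤ)} {M : ℕ} (z : ℤ × ℤ) :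
    rr W (sq2 M) z ≤ (W.filter (fun w => w - z ∈ box M)).card := by
  rw [rr]
  apply Finset.card_le_card_of_injOn (fun q => q.1)
  · intro q hq
    rw [Finset.mem_coe, Finset.mem_filter, Finset.mem_product] at hq
    rw [Finset.mem_coe, Finset.mem_filter]
    refine ⟨hq.1.1, ?_⟩
    rw [← hq.2]
    apply box_symm
    have : q.1 + q.2 - q.1 = q.2 := by abel
    rw [this]
    exact sq2_box hq.1.2
  · intro q hq q' hq' h
    rw [Finset.mem_coe, Finset.mem_filter, Finset.mem_product] at hq hq'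
    simp only at h
    refine Prod.ext h ?_
    have h1 := hq.2
    have h2 := hq'.2
    rw [← h] at h2
    exact add_left_cancel (h1.trans h2.symm)

theorem sum_rr_sq {W : Finset (ℤ × ℤ)} {M : ℕ} {V : ℝ}
    (hV : ∀ z, ((W.filter (fun w => w - z ∈ box M)).card : ℝ) ≤ V) :
    ∑ z ∈ W + sq2 M, (rr W (sq2 M) z : ℝ) ^ 2 ≤ V * (W.card * (M : ℝ) ^ 2) := by
  have h1 : ((W.card : ℝ) * (M : ℝ) ^ 2) = ∑ z ∈ W + sq2 M, (rr W (sq2 M) z : ℝ) := by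
    have := sum_rr_card W (sq2 M)
    have h2 : (((∑ z ∈ W + sq2 M, rr W (sq2 M) z : ℕ)) : ℝ) = ((W.card * (sq2 M).card : ℕ) : ℝ) := by
      rw [this]
    push_cast at h2
    rw [h2, card_sq2]
  rw [h1, Finset.mul_sum]
  refine Finset.sum_le_sum (fun z _ => ?_)
  rw [sq]
  refine mul_le_mul_of_nonneg_right ?_ (Nat.cast_nonneg _)
  exact le_trans (by exact_mod_cast rr_le z) (hV z)

theorem tdiff {r : ℕ → ℤ} {P : Finset ℕ} (hP : Rts r P) {Q : ℕ} (hQ : ∀ p ∈ P, p ≤ Q)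
    (hQ1 : 1 ≤ Q) {W : Finset (ℤ × ℤ)} (hW : ∀ w ∈ W, w ∈ box (Q ^ 2)) {M : ℕ} (hM : M ≤ Q)
    {V l : ℝ} (hV : ∀ z, ((W.filter (fun w => w - z ∈ box M)).card : ℝ) ≤ V)
    (hl : ∀ θ ∈ R1 P, nf r W θ ≤ l) :
    (∑ e ∈ R2 P, (nf r W e.1 * nf r W e.2 * nd r (sq2 M) e.1 e.2)
          * (nd r W e.1 e.2 * nd r (sq2 M) e.1 e.2)) ^ 2
      ≤ (l ^ 2 * ((∑ θ ∈ R1 P, nf r W θ ^ 2) * (9 * C0 * (Q : ℝ) ^ 2 * (M : ℝ) ^ 2)))
        * (16 * C0 * (Q : ℝ) ^ 4 * (V * (W.card * (M : ℝ) ^ 2))) := by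
  have hC0 := one_le_C0
  have hQ0 : (1 : ℝ) ≤ Q := by exact_mod_cast hQ1
  refine (Finset.sum_mul_sq_le_sq_mul_sq _ _ _).trans ?_
  have hA : ∑ e ∈ R2 P, (nf r W e.1 * nf r W e.2 * nd r (sq2 M) e.1 e.2) ^ 2
      ≤ l ^ 2 * ((∑ θ ∈ R1 P, nf r W θ ^ 2) * (9 * C0 * (Q : ℝ) ^ 2 * (M : ℝ) ^ 2)) := by
    calc ∑ e ∈ R2 P, (nf r W e.1 * nf r W e.2 * nd r (sq2 M) e.1 e.2) ^ 2
        ≤ ∑ e ∈ R1 P ×ˢ R1 P, l ^ 2 * (nf r W e.1 ^ 2 * nd r (sq2 M) e.1 e.2 ^ 2) := by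
          refine le_trans (Finset.sum_le_sum (fun e he => ?_))
            (Finset.sum_le_sum_of_subset_of_nonneg (Finset.filter_subset _ _) ?_)
          · have he2 := (mem_R2.mp he).1.2
            have h1 := hl _ he2
            have h2 := nf_nonneg r W e.2
            have h3 : nf r W e.2 ^ 2 ≤ l ^ 2 := pow_le_pow_left₀ h2 h1 2
            calc (nf r W e.1 * nf r W e.2 * nd r (sq2 M) e.1 e.2) ^ 2
                = nf r W e.2 ^ 2 * (nf r W e.1 ^ 2 * nd r (sq2 M) e.1 e.2 ^ 2) := by ring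
              _ ≤ _ := mul_le_mul_of_nonneg_right h3 (by positivity)
          · intro _ _ _; positivity
      _ = l ^ 2 * ∑ θ ∈ R1 P, nf r W θ ^ 2 * ∑ θ' ∈ R1 P, nd r (sq2 M) θ θ' ^ 2 := by
          rw [Finset.sum_product, Finset.mul_sum]
          refine Finset.sum_congr rfl (fun θ _ => ?_)
          rw [← Finset.mul_sum, Finset.mul_sum _ _ (nf r W θ ^ 2)]
      _ ≤ l ^ 2 * ∑ θ ∈ R1 P, nf r W θ ^ 2 * (9 * C0 * (Q : ℝ) ^ 2 * (M : ℝ) ^ 2) := by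
          refine mul_le_mul_of_nonneg_left (Finset.sum_le_sum (fun θ _ => ?_)) (by positivity)
          exact mul_le_mul_of_nonneg_left (row_diff hP hQ hQ1 hM _ _) (by positivity)
      _ = _ := by rw [← Finset.sum_mul]
  have hB : ∑ e ∈ R2 P, (nd r W e.1 e.2 * nd r (sq2 M) e.1 e.2) ^ 2
      ≤ 16 * C0 * (Q : ℝ) ^ 4 * (V * (W.card * (M : ℝ) ^ 2)) := by
    have hMQ : (M : ℤ) ≤ ((Q ^ 2 : ℕ) : ℤ) := by
      have : M ≤ Q ^ 2 := hM.trans (by nlinarith only [hQ1])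
      exact_mod_cast this
    have h := ls_mul (R2 P) (fun e => fx e.1 - fx e.2) (fun e => fy r e.1 - fy r e.2)
      (δ := 1 / (2 * (Q : ℝ) ^ 2)) (by positivity)
      (by rw [div_le_one (by positivity)]; nlinarith) (sep_R2 hP hQ hQ1) (2 * Q ^ 2) W (sq2 M)
      (by
        intro w hw
        obtain ⟨u, hu, v, hv, rfl⟩ := Finset.mem_add.mp hw
        have h1 := mem_box.mp (hW u hu)
        have h2 := mem_box.mp (sq2_box hv)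
        rw [mem_box]
        simp only [Prod.fst_add, Prod.snd_add]
        push_cast at h1 hMQ ⊢
        omega)
    refine h.trans ?_
    have h2 := sum_rr_sq hV
    have h3 : C0 * (((2 * Q ^ 2 : ℕ) : ℝ) + 1 / (1 / (2 * (Q : ℝ) ^ 2))) ^ 2
        = 16 * C0 * (Q : ℝ) ^ 4 := by
      rw [one_div_one_div]; push_cast; ring
    rw [h3]
    exact mul_le_mul_of_nonneg_left h2 (by positivity)
  refine mul_le_mul hA hB (Finset.sum_nonneg (fun _ _ => by positivity)) ?_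
  have : 0 ≤ ∑ θ ∈ R1 P, nf r W θ ^ 2 := Finset.sum_nonneg (fun _ _ => by positivity)
  positivity

/-- main inequality of step (b) -/
theorem bias {r : ℕ → ℤ} {P : Finset ℕ} (hP : Rts r P) {Q : ℕ} (hQ : ∀ p ∈ P, p ≤ Q)
    (hQ1 : 1 ≤ Q) {W : Finset (ℤ × ℤ)} (hW : ∀ w ∈ W, w ∈ box (Q ^ 2)) (hWne : W.Nonempty)
    {δ η : ℝ} (hδ : 0 < δ) (hη : 0 < η) (hPc : η * Q ≤ P.card)
    (hm : ∀ p ∈ P, ((im r W p).card : ℝ) ≤ (1 - δ) * p)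
    {D : ℝ} (hD : 0 < D) {M : ℕ} (hM : M ≤ Q) (hM2 : 2 ≤ M) (hMQ : 2 * Q ≤ M ^ 2)
    (hMS : 96 * C0 * D * M ≤ δ * η * Q)
    (hloc : ∀ w ∈ W, ((M / 2 : ℕ) : ℝ) ≤ D * ((W.filter (fun u => u - w ∈ box (M / 2))).card : ℝ))
    {V lam : ℝ} (hV : ∀ z, ((W.filter (fun w => w - z ∈ box M)).card : ℝ) ≤ V)
    (hl : ∀ θ ∈ R1 P, nf r W θ ≤ lam * W.card) :
    (M : ℝ) ^ 2 * (δ * η) ^ 3 * W.card ≤ 576 ^ 2 * C0 ^ 2 * D ^ 2 * lam ^ 2 * (Q : ℝ) ^ 3 * V := by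
  have hC0 := one_le_C0
  have hQ0 : (1 : ℝ) ≤ Q := by exact_mod_cast hQ1
  have hM0 : (2 : ℝ) ≤ M := by exact_mod_cast hM2
  set n : ℝ := (W.card : ℝ) with hn
  have hn0 : 0 < n := by rw [hn]; exact_mod_cast Finset.card_pos.mpr hWne
  set S : ℝ := ∑ θ ∈ R1 P, nf r W θ ^ 2 with hS
  have hS0 : δ * η * Q * n ^ 2 ≤ S := by
    have h1 := miss_sum hP (Finset.Subset.refl W) hδ.le hm
    refine le_trans ?_ h1
    have h2 : δ * (η * Q) ≤ δ * P.card := mul_le_mul_of_nonneg_left hPc hδ.le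
    calc δ * η * Q * n ^ 2 = (δ * (η * Q)) * n ^ 2 := by ring
      _ ≤ _ := mul_le_mul_of_nonneg_right h2 (by positivity)
  have hSpos : 0 < S := lt_of_lt_of_le (by positivity) hS0
  set X : ℝ := ∑ e ∈ R2 P, (nf r W e.1 * nf r W e.2 * nd r (sq2 M) e.1 e.2)
          * (nd r W e.1 e.2 * nd r (sq2 M) e.1 e.2) with hX
  have hX2 := tdiff hP hQ hQ1 hW hM hV hl
  rw [← hX, ← hS] at hX2
  have hsame : ∑ θ ∈ R1 P, ∑ θ' ∈ R1 P, nf r W θ * nf r W θ' * ker r M θ θ'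
      ≤ 4 * C0 * (M : ℝ) ^ 4 * S :=
    schur (R1 P) (nf r W) (ker r M) (ker_nonneg r M) (ker_symm r M)
      (fun θ hθ => row_same hP hQ hMQ (by omega) hθ)
  have h1 := main1 (R1 P) r (M := M) (L := M / 2) (Nat.div_le_self _ _)
    (c := ((M / 2 : ℕ) : ℝ) / D) (fun w hw => by
      rw [div_le_iff₀ hD, mul_comm]; exact hloc w hw)
  have h2 := main2 P r W M
  rw [← hX] at h2
  rw [← hn, ← hS] at h1
  rw [← hn] at h2
  have h3 : ((M / 2 : ℕ) : ℝ) / D * ((M : ℝ) - ((M / 2 : ℕ) : ℝ)) ^ 2 * S ^ 2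
      ≤ n * (n * (4 * C0 * (M : ℝ) ^ 4 * S) + 2 * X) := by
    refine h1.trans (mul_le_mul_of_nonneg_left (h2.trans ?_) hn0.le)
    have := mul_le_mul_of_nonneg_left hsame hn0.le
    linarith only [this]
  have hL1 : (M : ℝ) / 3 ≤ ((M / 2 : ℕ) : ℝ) := by
    have h4 : M ≤ 3 * (M / 2) := by omega
    have h5 : (M : ℝ) ≤ 3 * ((M / 2 : ℕ) : ℝ) := by exact_mod_cast h4
    linarith
  have hL2 : (M : ℝ) / 2 ≤ (M : ℝ) - ((M / 2 : ℕ) : ℝ) := by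
    have h4 : 2 * (M / 2) ≤ M := by omega
    have h5 : 2 * ((M / 2 : ℕ) : ℝ) ≤ (M : ℝ) := by exact_mod_cast h4
    linarith
  have h6 : (M : ℝ) ^ 3 / (12 * D) ≤ ((M / 2 : ℕ) : ℝ) / D * ((M : ℝ) - ((M / 2 : ℕ) : ℝ)) ^ 2 := by
    have h7 : ((M : ℝ) / 2) ^ 2 ≤ ((M : ℝ) - ((M / 2 : ℕ) : ℝ)) ^ 2 :=
      pow_le_pow_left₀ (by positivity) hL2 2
    have h8 : (M : ℝ) / 3 / D ≤ ((M / 2 : ℕ) : ℝ) / D := div_le_div_of_nonneg_right hL1 hD.le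
    calc (M : ℝ) ^ 3 / (12 * D) = (M : ℝ) / 3 / D * ((M : ℝ) / 2) ^ 2 := by field_simp; norm_num
      _ ≤ _ := mul_le_mul h8 h7 (by positivity) (by positivity)
  have h9 : (M : ℝ) ^ 3 / (12 * D) * S ^ 2 ≤ n * (n * (4 * C0 * (M : ℝ) ^ 4 * S) + 2 * X) :=
    le_trans (mul_le_mul_of_nonneg_right h6 (by positivity)) h3
  have h10 : n * (n * (4 * C0 * (M : ℝ) ^ 4 * S)) ≤ (M : ℝ) ^ 3 / (24 * D) * S ^ 2 := by
    have h11 : 96 * C0 * D * M * n ^ 2 ≤ S :=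
      le_trans (mul_le_mul_of_nonneg_right hMS (by positivity)) hS0
    have h12 : (96 * C0 * D * M * n ^ 2) * ((M : ℝ) ^ 3 / (24 * D) * S)
        ≤ S * ((M : ℝ) ^ 3 / (24 * D) * S) := mul_le_mul_of_nonneg_right h11 (by positivity)
    calc n * (n * (4 * C0 * (M : ℝ) ^ 4 * S))
        = (96 * C0 * D * M * n ^ 2) * ((M : ℝ) ^ 3 / (24 * D) * S) := by field_simp; norm_num
      _ ≤ _ := h12
      _ = _ := by ring
  have h13 : (M : ℝ) ^ 3 / (24 * D) * S ^ 2 ≤ 2 * n * X := by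
    have : (M : ℝ) ^ 3 / (12 * D) = 2 * ((M : ℝ) ^ 3 / (24 * D)) := by field_simp; norm_num
    rw [this] at h9
    nlinarith only [h9, h10]
  have h14 : (M : ℝ) ^ 3 * S ^ 2 ≤ 48 * D * n * X := by
    have h15 : (M : ℝ) ^ 3 / (24 * D) * S ^ 2 = (M : ℝ) ^ 3 * S ^ 2 / (24 * D) := by ring
    rw [h15, div_le_iff₀ (by positivity)] at h13
    linarith only [h13]
  have h16 : ((M : ℝ) ^ 3 * S ^ 2) ^ 2 ≤ (48 * D * n * X) ^ 2 :=
    pow_le_pow_left₀ (by positivity) h14 2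
  have h17 : (48 * D * n * X) ^ 2 ≤ (48 * D * n) ^ 2 *
      ((((lam * n) ^ 2 * (S * (9 * C0 * (Q : ℝ) ^ 2 * (M : ℝ) ^ 2)))
        * (16 * C0 * (Q : ℝ) ^ 4 * (V * (n * (M : ℝ) ^ 2))))) := by
    rw [mul_pow (48 * D * n) X]
    exact mul_le_mul_of_nonneg_left hX2 (by positivity)
  have h18 : (M : ℝ) ^ 2 * S ^ 3 * ((M : ℝ) ^ 4 * S) ≤
      576 ^ 2 * C0 ^ 2 * D ^ 2 * lam ^ 2 * n ^ 5 * (Q : ℝ) ^ 6 * V * ((M : ℝ) ^ 4 * S) := by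
    calc (M : ℝ) ^ 2 * S ^ 3 * ((M : ℝ) ^ 4 * S) = ((M : ℝ) ^ 3 * S ^ 2) ^ 2 := by ring
      _ ≤ _ := h16.trans h17
      _ = _ := by ring
  have h19 : (M : ℝ) ^ 2 * S ^ 3 ≤
      576 ^ 2 * C0 ^ 2 * D ^ 2 * lam ^ 2 * n ^ 5 * (Q : ℝ) ^ 6 * V :=
    le_of_mul_le_mul_right h18 (by positivity)
  have h20 : (δ * η * Q * n ^ 2) ^ 3 ≤ S ^ 3 := pow_le_pow_left₀ (by positivity) hS0 3
  have h21 : (M : ℝ) ^ 2 * (δ * η * Q * n ^ 2) ^ 3 ≤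
      576 ^ 2 * C0 ^ 2 * D ^ 2 * lam ^ 2 * n ^ 5 * (Q : ℝ) ^ 6 * V :=
    le_trans (mul_le_mul_of_nonneg_left h20 (by positivity)) h19
  have h22 : ((M : ℝ) ^ 2 * (δ * η) ^ 3 * n) * (n ^ 5 * (Q : ℝ) ^ 3)
      ≤ (576 ^ 2 * C0 ^ 2 * D ^ 2 * lam ^ 2 * (Q : ℝ) ^ 3 * V) * (n ^ 5 * (Q : ℝ) ^ 3) := by
    calc ((M : ℝ) ^ 2 * (δ * η) ^ 3 * n) * (n ^ 5 * (Q : ℝ) ^ 3)
        = (M : ℝ) ^ 2 * (δ * η * Q * n ^ 2) ^ 3 := by ring
      _ ≤ _ := h21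
      _ = _ := by ring
  exact le_of_mul_le_mul_right h22 (by positivity)

end Vale.Agent.P015.H222
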