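import Vale.Agent.P015.R2.H222.EnergyC

namespace Vale.Agent.P015.H222

open Finset Vale.Agent.P001 Vale.Agent.P006.CLS
open scoped ComplexConjugate Pointwise

/-- a curve-like set missing many classes modulo many primes has large additive energy -/
theorem energy_large {r : ℕ → ℤ} {P : Finset ℕ} (hP : Rts r P) {Q : ℕ} (hQ : ∀ p ∈ P, p ≤ Q)
    {W : Finset (ℤ × ℤ)} (hW : ∀ w ∈ W, w ∈ box (Q ^ 2))
    {δ η : ℝ} (hδ : 0 < δ) (hδ1 : δ ≤ 1) (hη : 0 < η) (hη1 : η ≤ 1) (hPc : η * Q ≤ P.card)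
    (hm : ∀ p ∈ P, ((im r W p).card : ℝ) ≤ (1 - δ) * p)
    {D : ℝ} (hD : 1 ≤ D) (hn : (Q : ℝ) ^ 2 ≤ 8 * D * W.card)
    (hloc : ∀ w ∈ W, ∀ m : ℕ, 1 ≤ m → 8 * m ≤ Q ^ 2 →
      (m : ℝ) ≤ D * ((W.filter (fun u => u - w ∈ box m)).card : ℝ))
    (hbig : 10 ^ 15 * C0 ^ 5 * D ^ 5 ≤ (δ * η) ^ 7 * Q) :
    (δ * η) ^ 26 * (W.card : ℝ) ^ 3 ≤ 10 ^ 62 * C0 ^ 21 * D ^ 21 * en W := by
  have hC0 := one_le_C0
  set t : ℝ := δ * η with ht
  have ht0 : 0 < t := by positivity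
  have ht1 : t ≤ 1 := mul_le_one₀ hδ1 hη.le hη1
  have hQr0 : (0 : ℝ) ≤ Q := Nat.cast_nonneg Q
  have hCD5 : 1 ≤ C0 ^ 5 * D ^ 5 := one_le_mul_of_one_le_of_one_le (one_le_pow₀ hC0) (one_le_pow₀ hD)
  have hCD1 : 1 ≤ C0 * D := one_le_mul_of_one_le_of_one_le hC0 hD
  have hpow : ∀ k : ℕ, k ≤ 7 → 10 ^ 15 * (C0 ^ 5 * D ^ 5) ≤ t ^ k * Q := by
    intro k hk
    calc 10 ^ 15 * (C0 ^ 5 * D ^ 5) = 10 ^ 15 * C0 ^ 5 * D ^ 5 := by ring
      _ ≤ t ^ 7 * Q := hbig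
      _ ≤ t ^ k * Q := mul_le_mul_of_nonneg_right (pow_le_pow_of_le_one ht0.le ht1 hk) hQr0
  have hQ15 : (10 : ℝ) ^ 15 ≤ Q := by
    have := hpow 0 (by norm_num)
    rw [pow_zero, one_mul] at this
    nlinarith
  have hQ0 : (1 : ℝ) ≤ Q := by linarith
  have hQ1 : 1 ≤ Q := by exact_mod_cast hQ0
  have hQ4 : 4 ≤ Q := by
    have : (4 : ℝ) ≤ Q := by linarith
    exact_mod_cast this
  have hWne : W.Nonempty := by
    rw [← Finset.card_pos]
    by_contra h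
    have h1 : W.card = 0 := by omega
    rw [h1] at hn
    simp only [Nat.cast_zero, mul_zero] at hn
    nlinarith
  set n : ℝ := (W.card : ℝ) with hndef
  have hn0 : 0 < n := by rw [hndef]; exact_mod_cast Finset.card_pos.mpr hWne
  -- choice of M
  set M : ℕ := ⌊t * Q / (192 * (C0 * D))⌋₊ with hM
  have hMle : (M : ℝ) ≤ t * Q / (192 * (C0 * D)) := Nat.floor_le (by positivity)
  have hMge0 : t * Q / (192 * (C0 * D)) - 1 < M := Nat.sub_one_lt_floor _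
  have hCD15 : C0 * D ≤ C0 ^ 5 * D ^ 5 := by
    have := le_self_pow₀ hCD1 (show (5 : ℕ) ≠ 0 by norm_num)
    calc C0 * D ≤ (C0 * D) ^ 5 := this
      _ = _ := by ring
  have hCD25 : (C0 * D) ^ 2 ≤ C0 ^ 5 * D ^ 5 := by
    have := pow_le_pow_right₀ hCD1 (show (2 : ℕ) ≤ 5 by norm_num)
    calc (C0 * D) ^ 2 ≤ (C0 * D) ^ 5 := this
      _ = _ := by ring
  have hMge : t * Q / (384 * (C0 * D)) ≤ M := by
    have h1 : 1 ≤ t * Q / (384 * (C0 * D)) := by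
      rw [le_div_iff₀ (by positivity)]
      have := hpow 1 (by norm_num)
      rw [pow_one] at this
      nlinarith only [this, hCD15, hCD1]
    have h2 : t * Q / (192 * (C0 * D)) = 2 * (t * Q / (384 * (C0 * D))) := by
      field_simp; norm_num
    linarith only [h1, h2, hMge0]
  have hMQ : M ≤ Q := by
    have h1 : t * Q / (192 * (C0 * D)) ≤ Q := by
      rw [div_le_iff₀ (by positivity)]
      nlinarith only [mul_le_mul_of_nonneg_right ht1 hQr0, hCD1, hQ0]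
    exact_mod_cast hMle.trans h1
  have hM2Q : 2 * Q ≤ M ^ 2 := by
    have h1 : (t * Q / (384 * (C0 * D))) ^ 2 ≤ (M : ℝ) ^ 2 := pow_le_pow_left₀ (by positivity) hMge 2
    have h2 : 2 * (Q : ℝ) ≤ (t * Q / (384 * (C0 * D))) ^ 2 := by
      rw [div_pow, le_div_iff₀ (by positivity)]
      have h3 := hpow 2 (by norm_num)
      have h4 : 2 * (384 * (C0 * D)) ^ 2 ≤ t ^ 2 * Q := by
        nlinarith only [h3, hCD25, hCD1]
      calc 2 * (Q : ℝ) * (384 * (C0 * D)) ^ 2 = (2 * (384 * (C0 * D)) ^ 2) * Q := by ring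
        _ ≤ (t ^ 2 * Q) * Q := mul_le_mul_of_nonneg_right h4 hQr0
        _ = _ := by ring
    have h5 : 2 * (Q : ℝ) ≤ (M : ℝ) ^ 2 := h2.trans h1
    exact_mod_cast h5
  have hM2 : 2 ≤ M := by
    by_contra h
    have h1 : M ≤ 1 := by omega
    have h2 : M ^ 2 ≤ 1 := by nlinarith
    omega
  -- threshold
  set l2 : ℝ := t ^ 6 / (10 ^ 14 * (C0 ^ 5 * D ^ 5)) with hl2
  have hl20 : 0 < l2 := by positivity
  set lam : ℝ := Real.sqrt l2 with hlam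
  have hlam0 : 0 < lam := Real.sqrt_pos.mpr hl20
  have hlam2 : lam ^ 2 = l2 := Real.sq_sqrt hl20.le
  set good : ℕ → Prop := fun p => ∃ a : ℕ, (⟨p, a⟩ : Σ _ : ℕ, ℕ) ∈ R1 P ∧ lam * n ≤ nf r W ⟨p, a⟩
    with hgood
  classical
  set P1 := P.filter good with hP1
  set P2 := P.filter (fun p => ¬ good p) with hP2
  have hcards : (P1.card : ℝ) + P2.card = P.card := by
    exact_mod_cast Finset.card_filter_add_card_filter_not (s := P) good
  have hP2small : (P2.card : ℝ) < η / 2 * Q := by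
    by_contra hcon
    rw [not_lt] at hcon
    have hV := fun z => local_upper hP hQ hQ1 hδ hη hPc hm hMQ z
    have hb := bias (r := r) (P := P2) (hP.mono (Finset.filter_subset _ _))
      (fun p hp => hQ p (Finset.mem_filter.mp hp).1) hQ1 hW hWne hδ (half_pos hη) hcon
      (fun p hp => hm p (Finset.mem_filter.mp hp).1) (D := D) (by linarith) hMQ hM2 hM2Q
      (by
        have h1 : (M : ℝ) * (192 * (C0 * D)) ≤ t * Q := by
          rwa [le_div_iff₀ (by positivity)] at hMle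
        calc 96 * C0 * D * M = (M : ℝ) * (192 * (C0 * D)) / 2 := by ring
          _ ≤ t * Q / 2 := by linarith only [h1]
          _ = δ * (η / 2) * Q := by rw [ht]; ring)
      (fun w hw => hloc w hw (M / 2) (by omega) (by nlinarith only [Nat.div_mul_le_self M 2, hMQ, hQ4]))
      hV (lam := lam) (fun θ hθ => by
        have h1 := mem_R1.mp hθ
        have h2 := Finset.mem_filter.mp h1.1
        by_contra h3
        rw [not_le] at h3
        exact h2.2 ⟨θ.2, mem_R1.mpr ⟨h2.1, h1.2⟩, h3.le⟩)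
    rw [hlam2] at hb
    have h1 : (t * Q / (384 * (C0 * D))) ^ 2 ≤ (M : ℝ) ^ 2 := pow_le_pow_left₀ (by positivity) hMge 2
    have h2 : (Q : ℝ) ^ 2 / (8 * D) ≤ n := by
      rw [div_le_iff₀ (by positivity)]; linarith only [hn]
    have h3 : (t * Q / (384 * (C0 * D))) ^ 2 * (δ * (η / 2)) ^ 3 * ((Q : ℝ) ^ 2 / (8 * D))
        ≤ 576 ^ 2 * C0 ^ 2 * D ^ 2 * l2 * (Q : ℝ) ^ 3 * (9 * C0 * Q / t) := by
      refine le_trans ?_ hb
      apply mul_le_mul _ h2 (by positivity) (by positivity)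
      exact mul_le_mul_of_nonneg_right h1 (by positivity)
    have h4 : δ * (η / 2) = t / 2 := by rw [ht]; ring
    rw [h4, hl2] at h3
    have h5 : (t * Q / (384 * (C0 * D))) ^ 2 * (t / 2) ^ 3 * ((Q : ℝ) ^ 2 / (8 * D))
        = t ^ 5 * (Q : ℝ) ^ 4 / (9437184 * (C0 ^ 2 * D ^ 3)) := by
      field_simp
      norm_num
    have h6 : 576 ^ 2 * C0 ^ 2 * D ^ 2 * (t ^ 6 / (10 ^ 14 * (C0 ^ 5 * D ^ 5))) * (Q : ℝ) ^ 3
        * (9 * C0 * Q / t) = t ^ 5 * (Q : ℝ) ^ 4 * (2985984 / 10 ^ 14) / (C0 ^ 2 * D ^ 3) := by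
      field_simp
      norm_num
    rw [h5, h6, div_le_div_iff₀ (by positivity) (by positivity)] at h3
    have h7 : 0 < t ^ 5 * (Q : ℝ) ^ 4 * (C0 ^ 2 * D ^ 3) := by positivity
    nlinarith only [h3, h7]
  have hP1big : η / 2 * Q ≤ P1.card := by linarith only [hP2small, hcards, hPc]
  have hP1g : ∀ p ∈ P1, good p := fun p hp => (Finset.mem_filter.mp hp).2
  have hchoice : ∃ a : ℕ → ℕ, ∀ p ∈ P1, (⟨p, a p⟩ : Σ _ : ℕ, ℕ) ∈ R1 P1 ∧
      lam * n ≤ nf r W ⟨p, a p⟩ := by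
    have h1 : ∀ p : ℕ, ∃ a : ℕ, p ∈ P1 → (⟨p, a⟩ : Σ _ : ℕ, ℕ) ∈ R1 P1 ∧
        lam * n ≤ nf r W ⟨p, a⟩ := by
      intro p
      by_cases hp : p ∈ P1
      · obtain ⟨a, ha1, ha2⟩ := hP1g p hp
        exact ⟨a, fun _ => ⟨mem_R1.mpr ⟨hp, (mem_R1.mp ha1).2⟩, ha2⟩⟩
      · exact ⟨0, fun h => absurd h hp⟩
    choose a ha using h1
    exact ⟨a, ha⟩
  obtain ⟨a, ha⟩ := hchoice
  have hN2 : 2 ≤ (P1.card : ℝ) * lam ^ 2 := by
    rw [hlam2]
    have h1 : η / 2 * Q * l2 ≤ P1.card * l2 := mul_le_mul_of_nonneg_right hP1big hl20.le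
    refine le_trans ?_ h1
    rw [hl2, ← mul_div_assoc, le_div_iff₀ (by positivity)]
    have h2 := hpow 7 le_rfl
    have h3 : t ^ 7 * Q ≤ η * t ^ 6 * Q := by
      have : t ≤ η := by
        rw [ht]; exact mul_le_of_le_one_left hη.le hδ1
      have h4 : t ^ 7 * Q = t * (t ^ 6 * Q) := by ring
      have h5 : η * t ^ 6 * Q = η * (t ^ 6 * Q) := by ring
      rw [h4, h5]
      exact mul_le_mul_of_nonneg_right this (by positivity)
    nlinarith only [h2, h3, hCD5]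
  have hc := step_c (hP.mono (Finset.filter_subset _ _ : P1 ⊆ P))
    (fun p hp => hQ p (Finset.mem_filter.mp hp).1) hQ1 hW hWne hlam0 a ha hN2
  have hlam8 : lam ^ 8 = l2 ^ 4 := by
    rw [← hlam2]; ring
  rw [hlam8] at hc
  have h1 : (η / 2 * Q) ^ 2 * l2 ^ 4 * n ^ 4 ≤ 4096 * C0 * (Q : ℝ) ^ 4 * en W := by
    refine le_trans ?_ hc
    apply mul_le_mul_of_nonneg_right _ (by positivity)
    apply mul_le_mul_of_nonneg_right _ (by positivity)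
    exact pow_le_pow_left₀ (by positivity) hP1big 2
  have hE0 : (0 : ℝ) ≤ en W := Nat.cast_nonneg _
  have h2 : η ^ 2 * l2 ^ 4 * n ^ 4 ≤ 16384 * C0 * (Q : ℝ) ^ 2 * en W := by
    have h3 : (η ^ 2 * l2 ^ 4 * n ^ 4) * (Q : ℝ) ^ 2 ≤ (16384 * C0 * (Q : ℝ) ^ 2 * en W) * (Q : ℝ) ^ 2 := by
      nlinarith only [h1]
    exact le_of_mul_le_mul_right h3 (by positivity)
  have h3 : η ^ 2 * l2 ^ 4 * n ^ 3 ≤ 131072 * C0 * D * en W := by
    have h4 : 16384 * C0 * (Q : ℝ) ^ 2 * en W ≤ 16384 * C0 * (8 * D * n) * en W := by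
      apply mul_le_mul_of_nonneg_right _ hE0
      exact mul_le_mul_of_nonneg_left hn (by positivity)
    have h5 : (η ^ 2 * l2 ^ 4 * n ^ 3) * n ≤ (131072 * C0 * D * en W) * n := by
      calc (η ^ 2 * l2 ^ 4 * n ^ 3) * n = η ^ 2 * l2 ^ 4 * n ^ 4 := by ring
        _ ≤ _ := h2.trans h4
        _ = _ := by ring
    exact le_of_mul_le_mul_right h5 hn0
  have h4 : l2 ^ 4 = t ^ 24 / (10 ^ 56 * (C0 ^ 20 * D ^ 20)) := by
    rw [hl2, div_pow]; congr 1 <;> ring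
  rw [h4] at h3
  have h5 : η ^ 2 * t ^ 24 * n ^ 3 ≤ 131072 * C0 * D * en W * (10 ^ 56 * (C0 ^ 20 * D ^ 20)) := by
    have h6 : η ^ 2 * (t ^ 24 / (10 ^ 56 * (C0 ^ 20 * D ^ 20))) * n ^ 3
        = η ^ 2 * t ^ 24 * n ^ 3 / (10 ^ 56 * (C0 ^ 20 * D ^ 20)) := by ring
    rw [h6, div_le_iff₀ (by positivity)] at h3
    exact h3
  have h7 : t ^ 26 * n ^ 3 ≤ η ^ 2 * t ^ 24 * n ^ 3 := by
    have h8 : t ^ 2 ≤ η ^ 2 := by
      apply pow_le_pow_left₀ ht0.le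
      rw [ht]; exact mul_le_of_le_one_left hη.le hδ1
    calc t ^ 26 * n ^ 3 = t ^ 2 * (t ^ 24 * n ^ 3) := by ring
      _ ≤ η ^ 2 * (t ^ 24 * n ^ 3) := mul_le_mul_of_nonneg_right h8 (by positivity)
      _ = _ := by ring
  have h9 : 0 ≤ C0 ^ 21 * D ^ 21 * en W := by positivity
  nlinarith only [h5, h7, h9]

end Vale.Agent.P015.H222
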