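import Vale.Agent.P015.R2.H222.Energy

namespace Vale.Agent.P015.H222

open Finset Vale.Agent.P001 Vale.Agent.P006.CLS
open scoped ComplexConjugate Pointwise

theorem step_c {r : ℕ → ℤ} {P : Finset ℕ} (hP : Rts r P) {Q : ℕ} (hQ : ∀ p ∈ P, p ≤ Q)
    (hQ1 : 1 ≤ Q) {W : Finset (ℤ × ℤ)} (hW : ∀ w ∈ W, w ∈ box (Q ^ 2)) (hWne : W.Nonempty)
    {lam : ℝ} (hlam : 0 < lam) (a : ℕ → ℕ)
    (ha : ∀ p ∈ P, (⟨p, a p⟩ : Σ _ : ℕ, ℕ) ∈ R1 P ∧ lam * W.card ≤ nf r W ⟨p, a p⟩)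
    (hN : 2 ≤ P.card * lam ^ 2) :
    (P.card : ℝ) ^ 2 * lam ^ 8 * (W.card : ℝ) ^ 4 ≤ 4096 * C0 * (Q : ℝ) ^ 4 * en W := by
  have hC0 := one_le_C0
  have hQ0 : (1 : ℝ) ≤ Q := by exact_mod_cast hQ1
  set n : ℝ := (W.card : ℝ) with hn
  have hn0 : 0 < n := by rw [hn]; exact_mod_cast Finset.card_pos.mpr hWne
  set N : ℝ := (P.card : ℝ) with hNdef
  have hN0 : 0 < N := by
    by_contra h
    have h1 : N * lam ^ 2 ≤ 0 := mul_nonpos_of_nonpos_of_nonneg (not_lt.mp h) (by positivity)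
    linarith
  set e : ℕ ↪ (Σ _ : ℕ, ℕ) := ⟨fun p => ⟨p, a p⟩, fun p q h => by
    have := congrArg Sigma.fst h
    exact this⟩ with he
  set R := P.map e with hR
  have hRsub : R ⊆ R1 P := by
    intro θ hθ
    obtain ⟨p, hp, rfl⟩ := Finset.mem_map.mp hθ
    exact (ha p hp).1
  have hRcard : (R.card : ℝ) = N := by rw [hR, Finset.card_map]
  have hRbig : ∀ θ ∈ R, lam * n ≤ nf r W θ := by
    intro θ hθ
    obtain ⟨p, hp, rfl⟩ := Finset.mem_map.mp hθ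
    exact (ha p hp).2
  have hRinj : ∀ θ ∈ R, ∀ θ' ∈ R, θ.1 = θ'.1 → θ = θ' := by
    intro θ hθ θ' hθ' h
    obtain ⟨p, hp, rfl⟩ := Finset.mem_map.mp hθ
    obtain ⟨p', hp', rfl⟩ := Finset.mem_map.mp hθ'
    have h1 : p = p' := h
    rw [h1]
  set T : ℝ := ∑ θ ∈ R, nf r W θ with hT
  have hTlow : N * (lam * n) ≤ T := by
    rw [← hRcard, ← nsmul_eq_mul]
    exact Finset.card_nsmul_le_sum R _ _ hRbig
  set b : (Σ _ : ℕ, ℕ) → ℂ := fun θ => conj (hg W (fx θ) (fy r θ)) / (nf r W θ : ℂ) with hb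
  have hb1 : ∀ θ, ‖b θ‖ ≤ 1 := by
    intro θ
    simp only [hb, norm_div, Complex.norm_conj, Complex.norm_real, Real.norm_eq_abs]
    rw [abs_of_nonneg (nf_nonneg r W θ)]
    exact div_self_le_one _
  have hTb : (T : ℂ) = ∑ θ ∈ R, b θ * hg W (fx θ) (fy r θ) := by
    rw [hT]
    push_cast
    refine Finset.sum_congr rfl (fun θ hθ => ?_)
    have h1 := normsq_eq (hg W (fx θ) (fy r θ))
    have h2 : (nf r W θ : ℂ) ≠ 0 := by
      have : 0 < nf r W θ := lt_of_lt_of_le (by positivity) (hRbig θ hθ)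
      exact_mod_cast this.ne'
    simp only [hb]
    rw [div_mul_eq_mul_div, eq_div_iff h2, mul_comm (conj _), ← h1, nf]
    push_cast
    ring
  have h1 := sq_le_card R r W b hTb
  have h2 := sqexp R fx (fy r) b W id
  have h3 : ∑ i ∈ R, ∑ j ∈ R, ‖b i‖ * ‖b j‖ * ‖∑ z ∈ W, e2 (fx i - fx j) (fy r i - fy r j) (id z)‖
      ≤ ∑ i ∈ R, ∑ j ∈ R, nd r W i j := by
    refine Finset.sum_le_sum (fun i _ => Finset.sum_le_sum (fun j _ => ?_))
    have h4 : ‖b i‖ * ‖b j‖ ≤ 1 := mul_le_one₀ (hb1 i) (norm_nonneg _) (hb1 j)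
    exact mul_le_of_le_one_left (norm_nonneg _) h4
  set E2 := (R ×ˢ R).filter (fun e => e.1.1 < e.2.1) with hE2
  set Y : ℝ := ∑ e ∈ E2, nd r W e.1 e.2 with hY
  have hsum2 : ∑ i ∈ R, ∑ j ∈ R, (if i.1 < j.1 then nd r W i j else 0) = Y := by
    rw [hY, hE2, Finset.sum_filter, Finset.sum_product]
  have h5 : ∑ i ∈ R, ∑ j ∈ R, nd r W i j ≤ N * n + 2 * Y := by
    have h6 : ∀ i ∈ R, ∀ j ∈ R, nd r W i j ≤ (if i = j then n else 0)
        + ((if i.1 < j.1 then nd r W i j else 0) + (if j.1 < i.1 then nd r W j i else 0)) := by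
      intro i hi j hj
      rcases lt_trichotomy i.1 j.1 with h | h | h
      · rw [if_neg (fun h' => by rw [h'] at h; exact lt_irrefl _ h), if_pos h,
          if_neg (not_lt.mpr h.le)]
        simp
      · have := hRinj i hi j hj h
        subst this
        simp only [if_true, lt_irrefl, if_false, add_zero]
        exact norm_hg_le _ _ _
      · rw [if_neg (fun h' => by rw [h'] at h; exact lt_irrefl _ h), if_pos h,
          if_neg (not_lt.mpr h.le), nd_symm]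
        simp
    calc ∑ i ∈ R, ∑ j ∈ R, nd r W i j
        ≤ ∑ i ∈ R, ∑ j ∈ R, ((if i = j then n else 0)
        + ((if i.1 < j.1 then nd r W i j else 0) + (if j.1 < i.1 then nd r W j i else 0))) :=
          Finset.sum_le_sum (fun i hi => Finset.sum_le_sum (fun j hj => h6 i hi j hj))
      _ = N * n + (Y + Y) := by
          simp_rw [Finset.sum_add_distrib]
          rw [hsum2]
          congr 1
          · simp only [Finset.sum_ite_eq]
            rw [← Finset.sum_filter]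
            simp [hRcard]
          · congr 1
            rw [Finset.sum_comm]
            exact hsum2
      _ = _ := by ring
  have h7 : T ^ 2 ≤ n * (N * n + 2 * Y) := by
    refine h1.trans (mul_le_mul_of_nonneg_left ?_ hn0.le)
    exact (h2.trans h3).trans h5
  have h8 : (N * (lam * n)) ^ 2 ≤ n * (N * n + 2 * Y) :=
    le_trans (pow_le_pow_left₀ (by positivity) hTlow 2) h7
  have hY1 : N ^ 2 * lam ^ 2 * n / 4 ≤ Y := by
    have h9 : N ^ 2 * lam ^ 2 * n ≤ N * n + 2 * Y := by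
      have : n * (N ^ 2 * lam ^ 2 * n) ≤ n * (N * n + 2 * Y) := by
        calc n * (N ^ 2 * lam ^ 2 * n) = (N * (lam * n)) ^ 2 := by ring
          _ ≤ _ := h8
      exact le_of_mul_le_mul_left this hn0
    have h10 : 2 * (N * n) ≤ N ^ 2 * lam ^ 2 * n := by
      calc 2 * (N * n) ≤ (N * lam ^ 2) * (N * n) := mul_le_mul_of_nonneg_right hN (by positivity)
        _ = _ := by ring
    linarith only [h9, h10]
  have hE2c : (E2.card : ℝ) ≤ N ^ 2 := by
    have h11 : E2.card ≤ (R ×ˢ R).card := Finset.card_filter_le _ _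
    rw [Finset.card_product] at h11
    have h12 : (E2.card : ℝ) ≤ (R.card : ℝ) * R.card := by exact_mod_cast h11
    rw [hRcard] at h12
    linarith only [h12]
  have hE2sub : E2 ⊆ R2 P := by
    intro q hq
    rw [hE2, Finset.mem_filter, Finset.mem_product] at hq
    exact mem_R2.mpr ⟨⟨hRsub hq.1.1, hRsub hq.1.2⟩, hq.2⟩
  have hls := ls_mul (R2 P) (fun e => fx e.1 - fx e.2) (fun e => fy r e.1 - fy r e.2)
      (δ := 1 / (2 * (Q : ℝ) ^ 2)) (by positivity)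
      (by rw [div_le_one (by positivity)]; nlinarith) (sep_R2 hP hQ hQ1) (2 * Q ^ 2) W W
      (by
        intro w hw
        obtain ⟨u, hu, v, hv, rfl⟩ := Finset.mem_add.mp hw
        have h1 := mem_box.mp (hW u hu)
        have h2 := mem_box.mp (hW v hv)
        rw [mem_box]
        simp only [Prod.fst_add, Prod.snd_add]
        push_cast at h1 h2 ⊢
        omega)
  have h3' : C0 * (((2 * Q ^ 2 : ℕ) : ℝ) + 1 / (1 / (2 * (Q : ℝ) ^ 2))) ^ 2
        = 16 * C0 * (Q : ℝ) ^ 4 := by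
      rw [one_div_one_div]; push_cast; ring
  rw [h3'] at hls
  have hen : ∑ z ∈ W + W, (rr W W z : ℝ) ^ 2 = (en W : ℝ) := by rw [en]; push_cast; rfl
  rw [hen] at hls
  have h13 : ∑ q ∈ E2, (nd r W q.1 q.2) ^ 4 ≤ 16 * C0 * (Q : ℝ) ^ 4 * en W := by
    refine le_trans ?_ hls
    refine le_trans (le_of_eq ?_)
      (Finset.sum_le_sum_of_subset_of_nonneg hE2sub (fun _ _ _ => by positivity))
    refine Finset.sum_congr rfl (fun q _ => ?_)
    rw [nd]; ring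
  have h14 : Y ^ 4 ≤ (E2.card : ℝ) ^ 3 * ∑ q ∈ E2, (nd r W q.1 q.2) ^ 4 := by
    have h15 : Y ^ 2 ≤ (E2.card : ℝ) * ∑ q ∈ E2, (nd r W q.1 q.2) ^ 2 := sq_sum_le_card_mul_sum_sq
    have h16 : (∑ q ∈ E2, (nd r W q.1 q.2) ^ 2) ^ 2
        ≤ (E2.card : ℝ) * ∑ q ∈ E2, ((nd r W q.1 q.2) ^ 2) ^ 2 := sq_sum_le_card_mul_sum_sq
    have h17 : ∑ q ∈ E2, ((nd r W q.1 q.2) ^ 2) ^ 2 = ∑ q ∈ E2, (nd r W q.1 q.2) ^ 4 := by
      refine Finset.sum_congr rfl (fun q _ => ?_)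
      ring
    rw [h17] at h16
    calc Y ^ 4 = (Y ^ 2) ^ 2 := by ring
      _ ≤ ((E2.card : ℝ) * ∑ q ∈ E2, (nd r W q.1 q.2) ^ 2) ^ 2 :=
          pow_le_pow_left₀ (by positivity) h15 2
      _ = (E2.card : ℝ) ^ 2 * (∑ q ∈ E2, (nd r W q.1 q.2) ^ 2) ^ 2 := by ring
      _ ≤ (E2.card : ℝ) ^ 2 * ((E2.card : ℝ) * ∑ q ∈ E2, (nd r W q.1 q.2) ^ 4) :=
          mul_le_mul_of_nonneg_left h16 (by positivity)
      _ = _ := by ring
  have h18 : (N ^ 2 * lam ^ 2 * n / 4) ^ 4 ≤ (N ^ 2) ^ 3 * (16 * C0 * (Q : ℝ) ^ 4 * en W) := by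
    calc (N ^ 2 * lam ^ 2 * n / 4) ^ 4 ≤ Y ^ 4 := pow_le_pow_left₀ (by positivity) hY1 4
      _ ≤ _ := h14
      _ ≤ _ := by
        apply mul_le_mul (pow_le_pow_left₀ (Nat.cast_nonneg _) hE2c 3) h13
          (Finset.sum_nonneg (fun _ _ => ?_)) (by positivity)
        rw [show (4 : ℕ) = 2 * 2 by norm_num, pow_mul]
        positivity
  have h19 : (N ^ 2 * lam ^ 8 * n ^ 4) * N ^ 6 ≤ (4096 * C0 * (Q : ℝ) ^ 4 * en W) * N ^ 6 := by
    have h20 : (N ^ 2 * lam ^ 2 * n / 4) ^ 4 = (N ^ 2 * lam ^ 8 * n ^ 4) * N ^ 6 / 256 := by ring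
    rw [h20] at h18
    linarith only [h18]
  exact le_of_mul_le_mul_right h19 (by positivity)

end Vale.Agent.P015.H222
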