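import Vale.Agent.P015.R2.H222.Primes

/-! The energy step for walks. -/

namespace Vale.Agent.P015.H222

open Finset Vale.Agent.P015 Vale.Agent.P015.Cx Vale.Agent.P006.CLS Vale.Agent.P015.R2.H731
  Filter Topology
open scoped Pointwise

/-- inverse of `cd` -/
def uc (w : ℤ × ℤ) : GaussianInt := ⟨w.1, w.2⟩

theorem uc_injective : Function.Injective uc := by
  intro a b h
  simp only [uc, Zsqrtd.mk.injEq] at h
  exact Prod.ext h.1 h.2

theorem co_uc (W : Finset (ℤ × ℤ)) : (W.image uc).image (co 0) = W := by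
  rw [Finset.image_image]
  have : co 0 ∘ uc = id := by
    funext w
    simp [co, uc]
  rw [this, Finset.image_id]

theorem lip_of {D D' : ℝ} (hD' : |D| ≤ D') {k : ℕ} {g : ℕ → GaussianInt}
    (hstep : ∀ a b, a ≤ b → b ≤ k → ((g b - g a).norm : ℝ) ≤ (D * ((b - a : ℕ) : ℝ)) ^ 2) :
    Lip (fun t => cd (g t - g 0)) D' k := by
  intro a b hab hb
  have h1 := hstep a b hab hb
  have h2 : (((g b - g a).norm : ℤ) : ℝ) = (((g b - g a).re : ℤ) : ℝ) ^ 2
      + (((g b - g a).im : ℤ) : ℝ) ^ 2 := by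
    simp only [Zsqrtd.norm]
    push_cast
    ring
  rw [h2] at h1
  have h3 : |D * ((b - a : ℕ) : ℝ)| ≤ D' * ((b - a : ℕ) : ℝ) := by
    rw [abs_mul, Nat.abs_cast]
    exact mul_le_mul_of_nonneg_right hD' (Nat.cast_nonneg _)
  have h4 : ∀ x : ℝ, x ^ 2 ≤ (D * ((b - a : ℕ) : ℝ)) ^ 2 → |x| ≤ D' * ((b - a : ℕ) : ℝ) :=
    fun x hx => (sq_le_sq.mp hx).trans h3
  have e1 : (((cd (g b - g 0)).1 : ℤ) : ℝ) - (cd (g a - g 0)).1 = (((g b - g a).re : ℤ) : ℝ) := by
    simp only [cd, Zsqrtd.re_sub]; push_cast; ring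
  have e2 : (((cd (g b - g 0)).2 : ℤ) : ℝ) - (cd (g a - g 0)).2 = (((g b - g a).im : ℤ) : ℝ) := by
    simp only [cd, Zsqrtd.im_sub]; push_cast; ring
  refine ⟨?_, ?_⟩
  · simp only
    rw [e1]
    exact h4 _ (by nlinarith only [h1, sq_nonneg (((g b - g a).im : ℤ) : ℝ)])
  · simp only
    rw [e2]
    exact h4 _ (by nlinarith only [h1, sq_nonneg (((g b - g a).re : ℤ) : ℝ)])

theorem energyStep (D : ℝ) : EnergyStepC 200 D := by
  have hC0 := one_le_C0
  obtain ⟨N₀, hN₀, hth⟩ := th_lower (c := 1 / 4) (by norm_num)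
  set D' : ℝ := max |D| 1 with hD'
  have hD1 : 1 ≤ D' := le_max_right _ _
  have hCD : 1 ≤ C0 ^ 21 * D' ^ 21 :=
    one_le_mul_of_one_le_of_one_le (one_le_pow₀ hC0) (one_le_pow₀ hD1)
  have hCD0 : C0 ^ 5 * D' ^ 5 ≤ C0 ^ 21 * D' ^ 21 :=
    mul_le_mul (pow_le_pow_right₀ hC0 (by norm_num)) (pow_le_pow_right₀ hD1 (by norm_num))
      (by positivity) (by positivity)
  have hDD : D' ≤ C0 ^ 21 * D' ^ 21 := by
    calc D' = 1 * D' ^ 1 := by ring
      _ ≤ C0 ^ 21 * D' ^ 21 :=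
        mul_le_mul (one_le_pow₀ hC0) (pow_le_pow_right₀ hD1 (by norm_num))
          (by positivity) (by positivity)
  set A : ℝ := 10 ^ 62 * 64 ^ 26 * (C0 ^ 21 * D' ^ 21) + N₀ with hA
  have hN₀0 : (0 : ℝ) ≤ N₀ := Nat.cast_nonneg _
  have hlogk : Tendsto (fun k : ℕ => Real.log (k : ℝ)) atTop atTop :=
    Real.tendsto_log_atTop.comp tendsto_natCast_atTop_atTop
  obtain ⟨k₀, hk₀⟩ := Filter.eventually_atTop.1
    ((hlogk.eventually (eventually_ge_atTop A)).and (eventually_ge_atTop 1))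
  refine ⟨k₀, fun k hk g hinj hstep R hRk hRC hlt hsum => ?_⟩
  obtain ⟨hkA, hk1⟩ := hk₀ k hk
  have hRA : A ≤ R := hkA.trans hRk
  have hA6 : (10 : ℝ) ^ 62 ≤ A := by rw [hA]; nlinarith only [hCD, hN₀0]
  have hR6 : (10 : ℝ) ^ 62 ≤ R := hA6.trans hRA
  have hR1 : 1 ≤ R := le_trans (by norm_num) hR6
  have hR0 : 0 < R := by linarith
  have hk0 : (0 : ℝ) < k := by exact_mod_cast hk1
  have hRpow : R ^ (200 : ℝ) = R ^ 200 := by
    rw [show (200 : ℝ) = ((200 : ℕ) : ℝ) by norm_num, Real.rpow_natCast]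
  rw [hRpow] at hRC
  set x : ℝ := (k : ℝ) ^ (1 / 4 : ℝ) with hx
  have hx0 : 0 < x := Real.rpow_pos_of_pos hk0 _
  have hx4 : x ^ 4 = k := by
    rw [hx, ← Real.rpow_natCast, ← Real.rpow_mul hk0.le]
    norm_num
  have hRx : R ^ 50 ≤ x := by
    have h1 : (R ^ 50) ^ 4 ≤ x ^ 4 := by rw [hx4, ← pow_mul]; exact hRC
    exact le_of_pow_le_pow_left₀ (by norm_num) hx0.le h1
  have hRle : R ≤ R ^ 50 := le_self_pow₀ hR1 (by norm_num)
  have hx6 : (10 : ℝ) ^ 62 ≤ x := (hR6.trans hRle).trans hRx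
  set Q : ℕ := ⌊x / 3⌋₊ with hQ
  have hQle : (Q : ℝ) ≤ x / 3 := Nat.floor_le (by positivity)
  have hQge : x / 6 ≤ Q := by
    have h1 : x / 3 - 1 < Q := Nat.sub_one_lt_floor _
    linarith only [h1, hx6]
  have hQ1 : (1 : ℝ) ≤ Q := by linarith only [hQge, hx6]
  have hQN : N₀ ≤ Q := by
    have h1 : (N₀ : ℝ) ≤ R := by
      refine le_trans ?_ hRA
      rw [hA]; nlinarith only [hCD]
    have h2 : R ^ 2 ≤ R ^ 50 := pow_le_pow_right₀ hR1 (by norm_num)
    have h3 : 6 * R ≤ R ^ 2 := by nlinarith only [hR6]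
    have h4 : (N₀ : ℝ) ≤ Q := by linarith only [h1, h2, h3, hRx, hQge]
    exact_mod_cast h4
  have hKk : (2 * Q ^ 2 + 1) ^ 2 ≤ k := by
    have h1 : (Q : ℝ) ^ 2 ≤ (x / 3) ^ 2 := pow_le_pow_left₀ (by positivity) hQle 2
    have h2 : 2 * (Q : ℝ) ^ 2 + 1 ≤ x ^ 2 := by nlinarith only [h1, hQ1]
    have h3 : (2 * (Q : ℝ) ^ 2 + 1) ^ 2 ≤ (x ^ 2) ^ 2 := pow_le_pow_left₀ (by positivity) h2 2
    have h4 : (x ^ 2) ^ 2 = k := by rw [← hx4]; ring
    rw [h4] at h3
    exact_mod_cast h3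
  have hQk : Q ^ 2 ≤ k := by nlinarith only [hKk]
  have hQ1' : 1 ≤ Q := by exact_mod_cast hQ1
  have hQk' : Q ≤ k := le_trans (by nlinarith only [hQ1']) hQk
  set h : ℕ → ℤ × ℤ := fun t => cd (g t - g 0) with hh
  have hlip : Lip h D' k := lip_of (le_max_left _ _) hstep
  have hhinj : ∀ a ≤ k, ∀ b ≤ k, h a = h b → a = b := by
    intro a ha b hb hab
    have h1 := cd_injective hab
    exact hinj a ha b hb (sub_left_injective h1)
  have hh0 : h 0 = 0 := by simp [hh, cd]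
  obtain ⟨W, hWsub, hWbox, hWK, hWloc⟩ := exists_sub hlip hhinj (by linarith) hh0 hKk
  have hdisp : (range (k + 1)).image h = (disp g 0 k).image cd := by
    rw [disp, Finset.image_image]
    refine Finset.image_congr (fun t _ => ?_)
    simp [hh]
  rw [hdisp] at hWsub
  obtain ⟨P, hPsub, hPc, hPm⟩ := good_primes hQk' hR1
    ((Real.log_le_log (by linarith) (by exact_mod_cast hQk')).trans hRk) hlt hsum (hth Q hQN)
  have hP : Rts rI P := rts_primes (fun p hp => (mem_primesMod.mp (hPsub hp)).2)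
  set d : ℝ := 1 / (8 * R) with hd
  have hd0 : 0 < d := by positivity
  have hd1 : d ≤ 1 := by
    rw [hd, div_le_one (by positivity)]; linarith
  have hdd : d * d = 1 / (64 * R ^ 2) := by rw [hd]; field_simp; norm_num
  have hWKr : (Q : ℝ) ^ 2 ≤ D' * W.card := by
    have := hWK
    push_cast at this
    exact this
  have hen := energy_large hP (fun p hp => (mem_primesMod.mp (hPsub hp)).1.2) hWbox hd0 hd1 hd0 hd1
    hPc (fun p hp => by
      have h1 := im_card_le (mem_primesMod.mp (hPsub hp)).2.1 hWsub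
      exact le_trans (by exact_mod_cast h1) (hPm p hp)) hD1
    (by nlinarith only [hWKr, hD1, mul_nonneg (le_trans zero_le_one hD1) (Nat.cast_nonneg (α := ℝ) W.card)])
    (fun w hw m _ hm => hWloc w hw m hm)
    (by
      rw [hdd, div_pow, one_pow, div_mul_eq_mul_div, one_mul, le_div_iff₀ (by positivity)]
      have h1 : 10 ^ 15 * C0 ^ 5 * D' ^ 5 * (64 * R ^ 2) ^ 7 ≤ R ^ 16 / 6 := by
        have h2 : 6 * (10 ^ 15 * 64 ^ 7) * (C0 ^ 5 * D' ^ 5) ≤ R := by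
          refine le_trans ?_ hRA
          rw [hA]
          nlinarith only [hCD0, hN₀0, hCD]
        have h3 : (6 * (10 ^ 15 * 64 ^ 7) * (C0 ^ 5 * D' ^ 5)) * R ^ 14 ≤ R * R ^ 14 :=
          mul_le_mul_of_nonneg_right h2 (by positivity)
        have h4 : R * R ^ 14 ≤ R ^ 16 := by
          calc R * R ^ 14 = R ^ 15 := by ring
            _ ≤ R ^ 16 := pow_le_pow_right₀ hR1 (by norm_num)
        nlinarith only [h3, h4]
      have h5 : R ^ 16 ≤ R ^ 50 := pow_le_pow_right₀ hR1 (by norm_num)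
      linarith only [h1, h5, hRx, hQge])
  have hR200 : (1 : ℝ) ≤ R ^ 200 := one_le_pow₀ hR1
  have hn0 : (0 : ℝ) ≤ W.card := Nat.cast_nonneg _
  have hnx : x ≤ W.card := by
    have h1 : (x / 6) ^ 2 ≤ (Q : ℝ) ^ 2 := pow_le_pow_left₀ (by positivity) hQge 2
    have h2 : 36 * D' ≤ x := by
      have h3 : 36 * D' ≤ A := by
        rw [hA]; nlinarith only [hDD, hCD, hN₀0]
      exact (h3.trans hRA).trans (hRle.trans hRx)
    have h4 : D' * x ≤ D' * W.card := by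
      nlinarith only [h1, h2, hWKr, hx0]
    exact le_of_mul_le_mul_left h4 (by linarith)
  refine ⟨W.image uc, 0, Q ^ 2, ?_, ?_, ?_, hQk, ?_, ?_, ?_⟩
  · intro z hz
    obtain ⟨w, hw, rfl⟩ := Finset.mem_image.mp hz
    obtain ⟨z', hz', rfl⟩ := Finset.mem_image.mp (hWsub hw)
    exact hz'
  · intro z hz
    obtain ⟨w, hw, rfl⟩ := Finset.mem_image.mp hz
    have h1 := mem_box.mp (hWbox w hw)
    rw [sub_zero]
    exact ⟨abs_le.mpr h1.1, abs_le.mpr h1.2⟩
  · nlinarith only [hQ1']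
  · rw [Finset.card_image_of_injective _ uc_injective]
    have h1 : (k : ℝ) ≤ (W.card : ℝ) ^ 4 := by
      rw [← hx4]; exact pow_le_pow_left₀ hx0.le hnx 4
    have h2 : (1 : ℝ) ≤ W.card := le_trans (by linarith only [hx6]) hnx
    refine h1.trans ?_
    rw [← Real.rpow_natCast]
    exact Real.rpow_le_rpow_of_exponent_le h2 (by norm_num)
  · rw [Finset.card_image_of_injective _ uc_injective, hRpow]
    push_cast
    refine hWKr.trans (mul_le_mul_of_nonneg_right ?_ hn0)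
    have h1 : D' ≤ R := by
      refine le_trans ?_ hRA
      rw [hA]; nlinarith only [hDD, hCD, hN₀0]
    exact h1.trans (le_self_pow₀ hR1 (by norm_num))
  · rw [Finset.card_image_of_injective _ uc_injective, hRpow, ← co_energy 0, co_uc, ← en_eq]
    have hE0 : (0 : ℝ) ≤ en W := Nat.cast_nonneg _
    rw [hdd, div_pow, one_pow, div_mul_eq_mul_div, one_mul, div_le_iff₀ (by positivity)] at hen
    refine hen.trans ?_
    have h1 : 10 ^ 62 * C0 ^ 21 * D' ^ 21 * (64 * R ^ 2) ^ 26 ≤ R ^ 200 := by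
      have h2 : 10 ^ 62 * 64 ^ 26 * (C0 ^ 21 * D' ^ 21) ≤ R := by
        refine le_trans ?_ hRA
        rw [hA]; linarith only [hN₀0]
      calc 10 ^ 62 * C0 ^ 21 * D' ^ 21 * (64 * R ^ 2) ^ 26
          = (10 ^ 62 * 64 ^ 26 * (C0 ^ 21 * D' ^ 21)) * R ^ 52 := by ring
        _ ≤ R * R ^ 52 := mul_le_mul_of_nonneg_right h2 (by positivity)
        _ = R ^ 53 := by ring
        _ ≤ R ^ 200 := pow_le_pow_right₀ hR1 (by norm_num)
    calc 10 ^ 62 * C0 ^ 21 * D' ^ 21 * (en W : ℝ) * (64 * R ^ 2) ^ 26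
        = (10 ^ 62 * C0 ^ 21 * D' ^ 21 * (64 * R ^ 2) ^ 26) * en W := by ring
      _ ≤ _ := mul_le_mul_of_nonneg_right h1 hE0

end Vale.Agent.P015.H222
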