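import Vale.Agent.P015.R2.H222.Level3
import Vale.Agent.P015.R2.H116.Defs

/-! Module L1: every level of primes has large coefficients. -/

namespace Vale.Agent.P015.H222

open Finset Vale.Agent.P006.CLS Vale.Agent.P015.R2.H116

theorem L1 : ∃ a : ℕ, ∀ (Λ : ℝ) (W : Finset (ℤ × ℤ)) (K Q : ℕ), Cv W K Λ →
    ∀ (r : ℕ → ℤ) (P : Finset ℕ), Rts r P → (∀ p ∈ P, p ≤ Q) → (Q : ℝ) ≤ Λ * P.card →
    (∀ p ∈ P, ((im r W p).card : ℝ) ≤ (1 - 1 / Λ) * p) → Λ ^ a ≤ Q → 16 * Q ^ 2 ≤ K →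
    ∀ f : ℤ × ℤ → ℂ, (∀ w, ‖f w‖ ≤ 1) → (W.card : ℝ) ≤ Λ * ‖∑ w ∈ W, f w‖ →
    ∃ P' ⊆ P, P.card ≤ 2 * P'.card ∧ ∀ p ∈ P', ∃ c ∈ Icc 1 (p - 1),
      (W.card : ℝ) ≤ Λ ^ a * ‖∑ w ∈ W, f w * e2 (fx ⟨p, c⟩) (fy r ⟨p, c⟩) w‖ := by
  classical
  refine ⟨445, fun Λ W K Q hW r P hP hQ hPc him hΛQ hQK f hf1 hfs => ?_⟩
  have hΛ := hW.ten
  have hC0 := hW.c0
  have hΛ0 : 0 < Λ := by linarith
  have hΛ1 : 1 ≤ Λ := by linarith
  have hΛ4 : (10 : ℝ) ^ 4 ≤ Λ ^ 4 := pow_le_pow_left₀ (by norm_num) hΛ 4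
  have hΛ5 : Λ ≤ Λ ^ 5 := by
    calc Λ = Λ ^ 1 := (pow_one _).symm
      _ ≤ Λ ^ 5 := pow_le_pow_right₀ hΛ1 (by norm_num)
  have hX : 4 * C1 ≤ Λ ^ 5 := by
    rw [C1]
    calc 4 * (1020 * C0) ≤ 4 * (1020 * Λ) := by gcongr
      _ ≤ Λ ^ 4 * Λ := by nlinarith
      _ = _ := by ring
  have hQX : 4 * (Λ ^ 5) ^ 26 ≤ (Q : ℝ) := by
    refine le_trans ?_ hΛQ
    calc 4 * (Λ ^ 5) ^ 26 ≤ Λ * (Λ ^ 5) ^ 26 := by gcongr; linarith
      _ = Λ ^ 131 := by ring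
      _ ≤ Λ ^ 445 := pow_le_pow_right₀ hΛ1 (by norm_num)
  have hQ1 : (1 : ℝ) ≤ Q := (one_le_pow₀ hΛ1).trans hΛQ
  have hWne : W.Nonempty := by
    rw [Finset.nonempty_iff_ne_empty]
    intro h
    have h1 := hW.size
    rw [h, Finset.card_empty, Nat.cast_zero, mul_zero] at h1
    have h2 : (1 : ℝ) ≤ K := by
      have h3 : ((16 * Q ^ 2 : ℕ) : ℝ) ≤ K := by exact_mod_cast hQK
      push_cast at h3
      nlinarith
    linarith
  set T : ∀ p : ℕ, Finset (ZMod p) := fun p => if h : p = 0 then ∅ else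
    (haveI : NeZero p := ⟨h⟩; Finset.univ \ im r W p) with hT
  have hTp : ∀ p (hp : p ∈ P), (haveI : NeZero p := ⟨(hP p hp).1.ne_zero⟩;
      T p = Finset.univ \ im r W p) := by
    intro p hp
    simp only [hT, dif_neg (hP p hp).1.ne_zero]
  have hTc : ∀ p ∈ P, (p : ℝ) ≤ Λ ^ 5 * (T p).card := by
    intro p hp
    have : NeZero p := ⟨(hP p hp).1.ne_zero⟩
    have hp0 : (0 : ℝ) < p := by exact_mod_cast (hP p hp).1.pos
    have h1 : (T p).card + (im r W p).card = p := by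
      rw [hTp p hp, Finset.card_sdiff_of_subset (Finset.subset_univ _), Finset.card_univ, ZMod.card]
      have := Finset.card_le_univ (im r W p)
      rw [ZMod.card] at this
      omega
    have h2 : ((T p).card : ℝ) + ((im r W p).card : ℝ) = p := by exact_mod_cast h1
    have h3 := him p hp
    have h4 : (p : ℝ) ≤ Λ * (T p).card := by
      have h5 : (1 / Λ) * p ≤ (T p).card := by linarith
      calc (p : ℝ) = Λ * ((1 / Λ) * p) := by field_simp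
        _ ≤ _ := by gcongr
    refine h4.trans ?_
    gcongr
  have hm : ∀ p ∈ P, ∀ w ∈ W, ((lf (r p) w : ℤ) : ZMod p) ∉ T p := by
    intro p hp w hw h
    have : NeZero p := ⟨(hP p hp).1.ne_zero⟩
    rw [hTp p hp, Finset.mem_sdiff] at h
    exact h.2 (Finset.mem_image_of_mem _ hw)
  have hΛX : Λ ≤ Λ ^ 5 := hΛ5
  have key := level_freq hX hP hQ hQX T hTc hm (by
      intro M hM1 hM z
      refine (hW.up z M hM1 (by nlinarith)).trans ?_
      gcongr) (by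
      intro M hM w hw
      refine (hW.low w hw M (by nlinarith)).trans ?_
      gcongr) f (fun w _ => hf1 w) (hfs.trans (by gcongr)) hWne
  refine ⟨P \ badP r P W f ((Λ ^ 5) ^ 89), Finset.sdiff_subset, ?_, ?_⟩
  · have hb : badP r P W f ((Λ ^ 5) ^ 89) ⊆ P := fun p hp => (mem_badP.mp hp).1
    have h1 := Finset.card_sdiff_of_subset hb
    have h2 : 2 * (badP r P W f ((Λ ^ 5) ^ 89)).card ≤ P.card := by
      have h3 : Λ * (2 * ((badP r P W f ((Λ ^ 5) ^ 89)).card : ℝ)) ≤ Λ * P.card := by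
        calc Λ * (2 * ((badP r P W f ((Λ ^ 5) ^ 89)).card : ℝ))
            = (Λ * 2) * ((badP r P W f ((Λ ^ 5) ^ 89)).card : ℝ) := by ring
          _ ≤ Λ ^ 5 * ((badP r P W f ((Λ ^ 5) ^ 89)).card : ℝ) := by
              have : Λ * 2 ≤ Λ ^ 5 := by
                calc Λ * 2 ≤ Λ * Λ ^ 4 := by gcongr; linarith
                  _ = _ := by ring
              gcongr
          _ ≤ Q := key
          _ ≤ _ := hPc
      have h4 := le_of_mul_le_mul_left h3 hΛ0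
      exact_mod_cast h4
    omega
  · intro p hp
    rw [Finset.mem_sdiff, mem_badP] at hp
    obtain ⟨hpP, hp2⟩ := hp
    have h3 : ¬ ∀ a ∈ Icc 1 (p - 1), (Λ ^ 5) ^ 89 * ‖hh r W f ⟨p, a⟩‖ < W.card :=
      fun h => hp2 ⟨hpP, h⟩
    push Not at h3
    obtain ⟨c, hc, h4⟩ := h3
    refine ⟨c, hc, ?_⟩
    rw [hh, hf] at h4
    have e : (Λ ^ 5) ^ 89 = Λ ^ 445 := by ring
    rw [e] at h4
    exact h4

end Vale.Agent.P015.H222
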