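import Vale.Agent.P015.R2.H222.Lkl2

/-! Level frequencies: a bounded weight with large mean on a path that misses many classes has a
large Fourier coefficient at almost every prime of a level. -/

namespace Vale.Agent.P015.H222

open Finset Vale.Agent.P001 Vale.Agent.P006.CLS
open scoped ComplexConjugate Pointwise

theorem hh_eq (r : ℕ → ℤ) (W : Finset (ℤ × ℤ)) (f : ℤ × ℤ → ℂ) (p a : ℕ) :
    hh r W f ⟨p, a⟩ = ∑ w ∈ W, f w * ee (((lf (r p) w : ℤ) : ℝ) * ((a : ℝ) / p)) := by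
  rw [hh, hf]
  refine Finset.sum_congr rfl (fun w _ => ?_)
  congr 1
  rw [e2]
  congr 1
  simp only [fx, fy, lf]
  push_cast
  ring

/-- transform of a set of residue classes -/
noncomputable def tau (p : ℕ) (T : Finset (ZMod p)) (a : ℕ) : ℂ :=
  ∑ t ∈ T, ee (-(((t.val : ℤ) : ℝ) * ((a : ℝ) / p)))

theorem tau_zero (p : ℕ) (T : Finset (ZMod p)) : tau p T 0 = (T.card : ℂ) := by
  simp [tau, ee_zero]

theorem norm_tau_le (p : ℕ) (T : Finset (ZMod p)) (a : ℕ) : ‖tau p T a‖ ≤ T.card := by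
  rw [tau]
  refine (norm_sum_le _ _).trans ?_
  simp [norm_ee]

theorem tau_orth {p : ℕ} (hp : 0 < p) (T : Finset (ZMod p)) (r : ℕ → ℤ) (W : Finset (ℤ × ℤ))
    (f : ℤ × ℤ → ℂ) (hm : ∀ w ∈ W, ((lf (r p) w : ℤ) : ZMod p) ∉ T) :
    ∑ a ∈ range p, tau p T a * hh r W f ⟨p, a⟩ = 0 := by
  have : NeZero p := ⟨hp.ne'⟩
  have h1 : ∀ a : ℕ, tau p T a * hh r W f ⟨p, a⟩
      = ∑ t ∈ T, ∑ w ∈ W, f w * ee (((lf (r p) w - (t.val : ℤ) : ℤ) : ℝ) * ((a : ℝ) / p)) := by
    intro a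
    rw [hh_eq, tau, Finset.sum_mul_sum]
    refine Finset.sum_congr rfl (fun t _ => Finset.sum_congr rfl (fun w _ => ?_))
    have e : (((lf (r p) w - (t.val : ℤ) : ℤ) : ℝ) * ((a : ℝ) / p))
        = -(((t.val : ℤ) : ℝ) * ((a : ℝ) / p)) + ((lf (r p) w : ℤ) : ℝ) * ((a : ℝ) / p) := by
      push_cast; ring
    rw [e, ee_add]
    ring
  simp_rw [h1]
  rw [Finset.sum_comm]
  refine Finset.sum_eq_zero (fun t ht => ?_)
  rw [Finset.sum_comm]
  refine Finset.sum_eq_zero (fun w hw => ?_)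
  rw [← Finset.mul_sum, orth p hp, if_neg, mul_zero]
  intro hd
  apply hm w hw
  have h2 := (ZMod.intCast_zmod_eq_zero_iff_dvd (lf (r p) w - (t.val : ℤ)) p).mpr hd
  push_cast at h2
  rw [ZMod.natCast_zmod_val] at h2
  rw [sub_eq_zero.mp h2]
  exact ht

theorem tau_parseval {p : ℕ} (hp : 0 < p) (T : Finset (ZMod p)) :
    ∑ a ∈ range p, ‖tau p T a‖ ^ 2 = p * T.card := by
  have : NeZero p := ⟨hp.ne'⟩
  have h0 : ((∑ a ∈ range p, ‖tau p T a‖ ^ 2 : ℝ) : ℂ) = ((p * T.card : ℝ) : ℂ) := by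
    push_cast
    have h1 : ∀ a : ℕ, ((‖tau p T a‖ : ℂ)) ^ 2
        = ∑ t ∈ T, ∑ t' ∈ T, ee ((((t'.val : ℤ) - (t.val : ℤ) : ℤ) : ℝ) * ((a : ℝ) / p)) := by
      intro a
      have := normsq_eq (tau p T a)
      push_cast at this
      rw [this, tau, map_sum, Finset.sum_mul_sum]
      refine Finset.sum_congr rfl (fun t _ => Finset.sum_congr rfl (fun t' _ => ?_))
      rw [← ee_neg, ← ee_add]
      congr 1
      push_cast; ring
    simp_rw [h1]
    rw [Finset.sum_comm]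
    have h2 : ∀ t ∈ T, ∑ a ∈ range p, ∑ t' ∈ T,
        ee ((((t'.val : ℤ) - (t.val : ℤ) : ℤ) : ℝ) * ((a : ℝ) / p)) = (p : ℂ) := by
      intro t ht
      rw [Finset.sum_comm]
      simp_rw [orth p hp]
      rw [Finset.sum_eq_single t]
      · simp
      · intro t' _ hne
        rw [if_neg]
        intro hd
        apply hne
        have h2 := (ZMod.intCast_zmod_eq_zero_iff_dvd ((t'.val : ℤ) - (t.val : ℤ)) p).mpr hd
        push_cast at h2
        rw [ZMod.natCast_zmod_val, ZMod.natCast_zmod_val] at h2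
        exact sub_eq_zero.mp h2
      · intro h; exact absurd ht h
    rw [Finset.sum_congr rfl h2, Finset.sum_const, nsmul_eq_mul]
    ring
  exact_mod_cast h0

/-- For one prime whose coefficients are all small, the frequencies at which `tau` is small carry
the mean of `f`. -/
theorem one_prime {X : ℝ} (hX : 2 ≤ X) (k : ℕ) {p : ℕ} (hp : 0 < p) (T : Finset (ZMod p))
    (hT : (p : ℝ) ≤ X * T.card) (r : ℕ → ℤ) (W : Finset (ℤ × ℤ)) (f : ℤ × ℤ → ℂ)
    (hm : ∀ w ∈ W, ((lf (r p) w : ℤ) : ZMod p) ∉ T)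
    (hfs : (W.card : ℝ) ≤ X * ‖∑ w ∈ W, f w‖)
    (hsm : ∀ a ∈ Icc 1 (p - 1), X ^ (2 * k + 3) * ‖hh r W f ⟨p, a⟩‖ ≤ W.card) :
    (W.card : ℝ) * T.card ≤ 2 * X * ∑ a ∈ (Icc 1 (p - 1)).filter
      (fun a => ¬ (T.card : ℝ) ≤ X ^ k * ‖tau p T a‖), ‖tau p T a‖ * ‖hh r W f ⟨p, a⟩‖ := by
  have hX0 : 0 < X := by linarith
  have hp0 : (0 : ℝ) < p := by exact_mod_cast hp
  have hT0 : (0 : ℝ) < T.card := by
    by_contra h
    have h1 : (T.card : ℝ) ≤ 0 := not_lt.mp h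
    nlinarith
  set q1 : ℕ → Prop := fun a => (T.card : ℝ) ≤ X ^ k * ‖tau p T a‖ with hq1
  have hrange : range p = insert 0 (Icc 1 (p - 1)) := by
    ext a
    simp only [Finset.mem_range, Finset.mem_insert, Finset.mem_Icc]
    omega
  have h0 := tau_orth hp T r W f hm
  rw [hrange, Finset.sum_insert (by simp)] at h0
  have hh0 : hh r W f ⟨p, 0⟩ = ∑ w ∈ W, f w := by
    rw [hh_eq]
    refine Finset.sum_congr rfl (fun w _ => ?_)
    simp [ee_zero]
  rw [tau_zero, hh0] at h0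
  have h1 : (T.card : ℝ) * ‖∑ w ∈ W, f w‖
      ≤ ∑ a ∈ Icc 1 (p - 1), ‖tau p T a‖ * ‖hh r W f ⟨p, a⟩‖ := by
    have h2 : (T.card : ℝ) * ‖∑ w ∈ W, f w‖ = ‖(T.card : ℂ) * ∑ w ∈ W, f w‖ := by
      rw [norm_mul, Complex.norm_natCast]
    rw [h2, eq_neg_of_add_eq_zero_left h0, norm_neg]
    refine (norm_sum_le _ _).trans (le_of_eq ?_)
    refine Finset.sum_congr rfl (fun a _ => norm_mul _ _)
  rw [← Finset.sum_filter_add_sum_filter_not _ q1] at h1
  -- number of large `tau`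
  have hcard : (((Icc 1 (p - 1)).filter q1).card : ℝ) ≤ X ^ (2 * k + 1) := by
    have h3 : (((Icc 1 (p - 1)).filter q1).card : ℝ) * (T.card : ℝ) ^ 2
        ≤ X ^ (2 * k) * (p * T.card) := by
      rw [← tau_parseval hp T, ← nsmul_eq_mul, Finset.mul_sum]
      refine (Finset.card_nsmul_le_sum _ (fun a => X ^ (2 * k) * ‖tau p T a‖ ^ 2) _
        (fun a ha => ?_)).trans ?_
      · have h4 := (Finset.mem_filter.mp ha).2
        calc (T.card : ℝ) ^ 2 ≤ (X ^ k * ‖tau p T a‖) ^ 2 := pow_le_pow_left₀ hT0.le h4 2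
          _ = _ := by ring
      · apply Finset.sum_le_sum_of_subset_of_nonneg
        · intro a ha
          have h5 := (Finset.mem_filter.mp ha).1
          rw [Finset.mem_Icc] at h5
          rw [Finset.mem_range]
          omega
        · intro _ _ _; positivity
    have h6 : (((Icc 1 (p - 1)).filter q1).card : ℝ) * (T.card : ℝ) ^ 2
        ≤ X ^ (2 * k + 1) * (T.card : ℝ) ^ 2 := by
      refine h3.trans ?_
      calc X ^ (2 * k) * (p * T.card) ≤ X ^ (2 * k) * ((X * T.card) * T.card) := by gcongr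
        _ = _ := by ring
    exact le_of_mul_le_mul_right h6 (by positivity)
  have h7 : X ^ (2 * k + 3) * ∑ a ∈ (Icc 1 (p - 1)).filter q1, ‖tau p T a‖ * ‖hh r W f ⟨p, a⟩‖
      ≤ X ^ (2 * k + 1) * (T.card * W.card) := by
    rw [Finset.mul_sum]
    calc ∑ a ∈ (Icc 1 (p - 1)).filter q1,
          X ^ (2 * k + 3) * (‖tau p T a‖ * ‖hh r W f ⟨p, a⟩‖)
        ≤ ∑ a ∈ (Icc 1 (p - 1)).filter q1, (T.card * W.card : ℝ) := by
          refine Finset.sum_le_sum (fun a ha => ?_)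
          have h8 := hsm a (Finset.mem_filter.mp ha).1
          calc X ^ (2 * k + 3) * (‖tau p T a‖ * ‖hh r W f ⟨p, a⟩‖)
              = ‖tau p T a‖ * (X ^ (2 * k + 3) * ‖hh r W f ⟨p, a⟩‖) := by ring
            _ ≤ T.card * W.card := by
              refine mul_le_mul (norm_tau_le p T a) h8 (by positivity) hT0.le
      _ = (((Icc 1 (p - 1)).filter q1).card : ℝ) * (T.card * W.card) := by
          rw [Finset.sum_const, nsmul_eq_mul]
      _ ≤ _ := by gcongr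
  have h9 : X ^ 2 * ∑ a ∈ (Icc 1 (p - 1)).filter q1, ‖tau p T a‖ * ‖hh r W f ⟨p, a⟩‖
      ≤ T.card * W.card := by
    have h10 : 0 < X ^ (2 * k + 1) := by positivity
    refine le_of_mul_le_mul_left (le_trans (le_of_eq ?_) h7) h10
    ring
  set A := ∑ a ∈ (Icc 1 (p - 1)).filter q1, ‖tau p T a‖ * ‖hh r W f ⟨p, a⟩‖ with hA
  set B := ∑ a ∈ (Icc 1 (p - 1)).filter (fun a => ¬ q1 a), ‖tau p T a‖ * ‖hh r W f ⟨p, a⟩‖ with hB
  have hA0 : 0 ≤ A := Finset.sum_nonneg (fun _ _ => by positivity)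
  have h11 : (W.card : ℝ) * T.card ≤ X * A + X * B := by
    calc (W.card : ℝ) * T.card ≤ (X * ‖∑ w ∈ W, f w‖) * T.card := by gcongr
      _ = X * (T.card * ‖∑ w ∈ W, f w‖) := by ring
      _ ≤ X * (A + B) := by gcongr
      _ = _ := by ring
  have h12 : 2 * (X * A) ≤ T.card * W.card := by
    refine le_trans ?_ h9
    have : 2 * X ≤ X ^ 2 := by nlinarith
    calc 2 * (X * A) = (2 * X) * A := by ring
      _ ≤ _ := by gcongr
  have h13 : (W.card : ℝ) * T.card ≤ 2 * X * B := by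
    have : (T.card : ℝ) * W.card = W.card * T.card := by ring
    nlinarith
  exact h13

end Vale.Agent.P015.H222
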