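import Vale.Agent.P015.R2.H222.Level

/-! Level frequencies, part 2: sum over boxes. -/

namespace Vale.Agent.P015.H222

open Finset Vale.Agent.P001 Vale.Agent.P006.CLS
open scoped ComplexConjugate Pointwise

/-- index of the grid cell of side `S` -/
def cell (S : ℕ) (w : ℤ × ℤ) : ℤ × ℤ := (w.1 / (S : ℤ), w.2 / (S : ℤ))

/-- corner of a cell -/
def corner (S : ℕ) (b : ℤ × ℤ) : ℤ × ℤ := (b.1 * S, b.2 * S)

theorem cell_bounds {S : ℕ} (hS : 0 < S) {w b : ℤ × ℤ} (h : cell S w = b) :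
    (b.1 * S ≤ w.1 ∧ w.1 < b.1 * S + S) ∧ (b.2 * S ≤ w.2 ∧ w.2 < b.2 * S + S) := by
  have hS' : (0 : ℤ) < S := by exact_mod_cast hS
  subst h
  simp only [cell]
  have h1 := Int.emod_add_mul_ediv w.1 S
  have h2 := Int.emod_nonneg w.1 hS'.ne'
  have h3 := Int.emod_lt_of_pos w.1 hS'
  have h4 := Int.emod_add_mul_ediv w.2 S
  have h5 := Int.emod_nonneg w.2 hS'.ne'
  have h6 := Int.emod_lt_of_pos w.2 hS'
  refine ⟨⟨?_, ?_⟩, ?_, ?_⟩ <;> linarith [mul_comm (w.1 / (S : ℤ)) S, mul_comm (w.2 / (S : ℤ)) S]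

/-- number of nonempty cells -/
theorem card_cells {X : ℝ} (hX0 : 0 ≤ X) {W : Finset (ℤ × ℤ)} {S : ℕ} (hS : 0 < S)
    (conn : ∀ w ∈ W, (S : ℝ) ≤ X * ((W.filter (fun u => u - w ∈ box S)).card : ℝ)) :
    (S : ℝ) * ((W.image (cell S)).card : ℝ) ≤ 9 * X * W.card := by
  have hS' : (0 : ℤ) < S := by exact_mod_cast hS
  set E : Finset (ℤ × ℤ) := Finset.Icc (-1 : ℤ) 1 ×ˢ Finset.Icc (-1 : ℤ) 1 with hE
  have hEc : E.card = 9 := by rw [hE]; rfl
  have h1 : ∀ b ∈ W.image (cell S),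
      (S : ℝ) ≤ X * ∑ e ∈ E, ((W.filter (fun u => cell S u = b + e)).card : ℝ) := by
    intro b hb
    obtain ⟨w, hw, hwb⟩ := Finset.mem_image.mp hb
    refine (conn w hw).trans (mul_le_mul_of_nonneg_left ?_ hX0)
    have h2 : W.filter (fun u => u - w ∈ box S) ⊆
        E.biUnion (fun e => W.filter (fun u => cell S u = b + e)) := by
      intro u hu
      rw [Finset.mem_filter, mem_box] at hu
      obtain ⟨huW, hu2⟩ := hu
      rw [Finset.mem_biUnion]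
      have hb1 := cell_bounds hS hwb
      have hb2 := cell_bounds hS (rfl : cell S u = cell S u)
      simp only [Prod.fst_sub, Prod.snd_sub] at hu2
      refine ⟨cell S u - b, ?_, ?_⟩
      · rw [hE, Finset.mem_product, Finset.mem_Icc, Finset.mem_Icc]
        simp only [Prod.fst_sub, Prod.snd_sub]
        refine ⟨⟨?_, ?_⟩, ?_, ?_⟩
        · by_contra h
          have h3 : (cell S u).1 + 2 ≤ b.1 := by omega
          nlinarith
        · by_contra h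
          have h3 : b.1 + 2 ≤ (cell S u).1 := by omega
          nlinarith
        · by_contra h
          have h3 : (cell S u).2 + 2 ≤ b.2 := by omega
          nlinarith
        · by_contra h
          have h3 : b.2 + 2 ≤ (cell S u).2 := by omega
          nlinarith
      · rw [Finset.mem_filter]
        exact ⟨huW, by abel⟩
    have h3 := (Finset.card_le_card h2).trans Finset.card_biUnion_le
    exact_mod_cast h3
  have h4 : (S : ℝ) * ((W.image (cell S)).card : ℝ)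
      ≤ ∑ b ∈ W.image (cell S), X * ∑ e ∈ E, ((W.filter (fun u => cell S u = b + e)).card : ℝ) := by
    calc (S : ℝ) * ((W.image (cell S)).card : ℝ) = ∑ b ∈ W.image (cell S), (S : ℝ) := by
          rw [Finset.sum_const, nsmul_eq_mul]; ring
      _ ≤ _ := Finset.sum_le_sum h1
  refine h4.trans ?_
  rw [← Finset.mul_sum, Finset.sum_comm]
  have h5 : ∀ e ∈ E, ∑ b ∈ W.image (cell S), ((W.filter (fun u => cell S u = b + e)).card : ℝ)
      ≤ W.card := by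
    intro e _
    rw [← Nat.cast_sum]
    have h6 : ∑ b ∈ W.image (cell S), (W.filter (fun u => cell S u = b + e)).card
        = ((W.image (cell S)).biUnion (fun b => W.filter (fun u => cell S u = b + e))).card := by
      rw [Finset.card_biUnion]
      intro b _ b' _ hbb'
      rw [Function.onFun, Finset.disjoint_left]
      intro u hu hu'
      apply hbb'
      have h7 := (Finset.mem_filter.mp hu).2
      have h8 := (Finset.mem_filter.mp hu').2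
      rw [h7] at h8
      exact add_right_cancel h8
    rw [h6]
    have h9 : (W.image (cell S)).biUnion (fun b => W.filter (fun u => cell S u = b + e)) ⊆ W := by
      intro u hu
      obtain ⟨b, _, hb⟩ := Finset.mem_biUnion.mp hu
      exact (Finset.mem_filter.mp hb).1
    exact_mod_cast Finset.card_le_card h9
  calc X * ∑ e ∈ E, ∑ b ∈ W.image (cell S), ((W.filter (fun u => cell S u = b + e)).card : ℝ)
      ≤ X * ∑ e ∈ E, (W.card : ℝ) := by
        gcongr with e he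
        exact h5 e he
    _ = 9 * X * W.card := by
        rw [Finset.sum_const, hEc, nsmul_eq_mul]; push_cast; ring

theorem hh_cells (r : ℕ → ℤ) (W : Finset (ℤ × ℤ)) (f : ℤ × ℤ → ℂ) (S : ℕ) (θ : Σ _ : ℕ, ℕ) :
    hh r W f θ = ∑ b ∈ W.image (cell S), hh r (W.filter (fun w => cell S w = b)) f θ := by
  simp only [hh, hf]
  rw [Finset.sum_fiberwise_of_maps_to (fun w hw => Finset.mem_image_of_mem _ hw)]

theorem card_le_of_primes {r : ℕ → ℤ} {P : Finset ℕ} (hP : Rts r P) {Q : ℕ} (hQ : ∀ p ∈ P, p ≤ Q) :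
    P.card ≤ Q := by
  have h : P ⊆ Finset.Icc 1 Q := fun p hp => by
    rw [Finset.mem_Icc]
    exact ⟨(hP p hp).1.pos, hQ p hp⟩
  have := Finset.card_le_card h
  rw [Nat.card_Icc] at this
  omega

/-- normalised transform of the missed classes -/
noncomputable def gT (T : ∀ p : ℕ, Finset (ZMod p)) (θ : Σ _ : ℕ, ℕ) : ℝ :=
  ‖tau θ.1 (T θ.1) θ.2‖ / (T θ.1).card

theorem gT_nonneg (T : ∀ p : ℕ, Finset (ZMod p)) (θ : Σ _ : ℕ, ℕ) : 0 ≤ gT T θ := by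
  rw [gT]; positivity

theorem T_pos {X : ℝ} {r : ℕ → ℤ} {P : Finset ℕ} (hP : Rts r P) (T : ∀ p : ℕ, Finset (ZMod p))
    (hT : ∀ p ∈ P, (p : ℝ) ≤ X * (T p).card) (hX0 : 0 < X) {p : ℕ} (hp : p ∈ P) :
    (0 : ℝ) < (T p).card := by
  by_contra h
  have h1 : ((T p).card : ℝ) ≤ 0 := not_lt.mp h
  have h2 := hT p hp
  have h3 : (0 : ℝ) < p := by exact_mod_cast (hP p hp).1.pos
  nlinarith

theorem sum_gT_sq {X : ℝ} (hX0 : 0 < X) {r : ℕ → ℤ} {P : Finset ℕ} (hP : Rts r P) {Q : ℕ}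
    (hQ : ∀ p ∈ P, p ≤ Q) (T : ∀ p : ℕ, Finset (ZMod p))
    (hT : ∀ p ∈ P, (p : ℝ) ≤ X * (T p).card) :
    ∑ θ ∈ R1 P, gT T θ ^ 2 ≤ X * Q := by
  rw [R1, Finset.sum_sigma]
  calc ∑ p ∈ P, ∑ a ∈ Icc 1 (p - 1), gT T ⟨p, a⟩ ^ 2 ≤ ∑ p ∈ P, X := by
        refine Finset.sum_le_sum (fun p hp => ?_)
        have h5 := T_pos hP T hT hX0 hp
        have h6 := tau_parseval (hP p hp).1.pos (T p)
        have h7 : ∑ a ∈ Icc 1 (p - 1), ‖tau p (T p) a‖ ^ 2 ≤ p * (T p).card := by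
          rw [← h6]
          apply Finset.sum_le_sum_of_subset_of_nonneg
          · intro a ha
            rw [Finset.mem_Icc] at ha
            rw [Finset.mem_range]
            have := (hP p hp).1.pos
            omega
          · intro _ _ _; positivity
        have h8 : ∑ a ∈ Icc 1 (p - 1), gT T ⟨p, a⟩ ^ 2
            = (∑ a ∈ Icc 1 (p - 1), ‖tau p (T p) a‖ ^ 2) / ((T p).card : ℝ) ^ 2 := by
          rw [Finset.sum_div]
          refine Finset.sum_congr rfl (fun a _ => ?_)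
          rw [gT, div_pow]
        rw [h8, div_le_iff₀ (by positivity)]
        refine h7.trans ?_
        have h9 := hT p hp
        calc (p : ℝ) * (T p).card ≤ (X * (T p).card) * (T p).card := by gcongr
          _ = _ := by ring
    _ = P.card * X := by rw [Finset.sum_const, nsmul_eq_mul]
    _ ≤ Q * X := by
        have : (P.card : ℝ) ≤ Q := by exact_mod_cast card_le_of_primes hP hQ
        gcongr
    _ = _ := by ring

theorem one_cell_small {X : ℝ} (hX0 : 0 < X) {R F F' : Finset (Σ _ : ℕ, ℕ)} (hF : F' ⊆ F)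
    (hR : F' ⊆ R) {Q : ℝ} (hQ0 : 0 ≤ Q) (g H : (Σ _ : ℕ, ℕ) → ℝ)
    (hg : ∑ θ ∈ R, g θ ^ 2 ≤ X * Q) (h2 : X ^ 9 * ∑ θ ∈ F, H θ ^ 2 ≤ Q ^ 5) :
    X ^ 4 * ∑ θ ∈ F', g θ * H θ ≤ Q ^ 3 := by
  have h3 : (∑ θ ∈ F', g θ * H θ) ^ 2 ≤ (X * Q) * ∑ θ ∈ F, H θ ^ 2 := by
    refine (Finset.sum_mul_sq_le_sq_mul_sq _ _ _).trans ?_
    refine mul_le_mul ?_ ?_ (Finset.sum_nonneg (fun _ _ => by positivity)) (by positivity)
    · refine le_trans ?_ hg
      exact Finset.sum_le_sum_of_subset_of_nonneg hR (fun _ _ _ => by positivity)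
    · exact Finset.sum_le_sum_of_subset_of_nonneg hF (fun _ _ _ => by positivity)
  have h5 : (X ^ 4 * ∑ θ ∈ F', g θ * H θ) ^ 2 ≤ (Q ^ 3) ^ 2 := by
    calc (X ^ 4 * ∑ θ ∈ F', g θ * H θ) ^ 2 = X ^ 8 * (∑ θ ∈ F', g θ * H θ) ^ 2 := by ring
      _ ≤ X ^ 8 * ((X * Q) * ∑ θ ∈ F, H θ ^ 2) := mul_le_mul_of_nonneg_left h3 (by positivity)
      _ = Q * (X ^ 9 * ∑ θ ∈ F, H θ ^ 2) := by ring
      _ ≤ Q * Q ^ 5 := mul_le_mul_of_nonneg_left h2 hQ0
      _ = _ := by ring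
  exact (le_abs_self _).trans (abs_le_of_sq_le_sq h5 (by positivity))

theorem one_cell_large {X : ℝ} (hX0 : 0 < X) {F F' : Finset (Σ _ : ℕ, ℕ)} (hF : F' ⊆ F)
    {Q v : ℝ} (hv0 : 0 ≤ v) (g H : (Σ _ : ℕ, ℕ) → ℝ) (hH0 : ∀ θ ∈ F', 0 ≤ H θ)
    (hH : ∀ θ ∈ F', H θ ≤ v) (hg : ∀ θ ∈ F', X ^ 43 * g θ ≤ 1)
    (h1 : (F.card : ℝ) ≤ X ^ 39 * Q) :
    X ^ 4 * ∑ θ ∈ F', g θ * H θ ≤ Q * v := by
  have h7 : X ^ 43 * ∑ θ ∈ F', g θ * H θ ≤ X ^ 39 * (Q * v) := by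
    rw [Finset.mul_sum]
    calc ∑ θ ∈ F', X ^ 43 * (g θ * H θ)
        ≤ ∑ θ ∈ F', v := Finset.sum_le_sum (fun θ hθ => by
          calc X ^ 43 * (g θ * H θ) = (X ^ 43 * g θ) * H θ := by ring
            _ ≤ 1 * v := mul_le_mul (hg θ hθ) (hH θ hθ) (hH0 θ hθ) zero_le_one
            _ = _ := one_mul _)
      _ = (F'.card : ℝ) * v := by
          rw [Finset.sum_const, nsmul_eq_mul]
      _ ≤ (F.card : ℝ) * v := by gcongr
      _ ≤ (X ^ 39 * Q) * v := by gcongr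
      _ = _ := by ring
  have h8 : 0 < X ^ 39 := by positivity
  refine le_of_mul_le_mul_left (le_trans (le_of_eq ?_) h7) h8
  ring

/-- contribution of one cell -/
theorem one_cell {X : ℝ} (hX : 4 * C1 ≤ X) {r : ℕ → ℤ} {P : Finset ℕ} (hP : Rts r P) {Q : ℕ}
    (hQ : ∀ p ∈ P, p ≤ Q) (hQX : 4 * X ^ 26 ≤ Q)
    (T : ∀ p : ℕ, Finset (ZMod p)) (hT : ∀ p ∈ P, (p : ℝ) ≤ X * (T p).card)
    {V U : Finset (ℤ × ℤ)} {n₀ : ℤ × ℤ} (hU : ∀ w ∈ U, w - n₀ ∈ box (2 * Q ^ 2))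
    (hUc : (U.card : ℝ) ≤ 2 * X * (Q : ℝ) ^ 2) (hVc : (V.card : ℝ) ≤ 2 * X * (Q : ℝ) ^ 2)
    (dens : ∀ M : ℕ, 1 ≤ M → M ≤ Q → ∀ z,
      ((U.filter (fun w => w - z ∈ box M)).card : ℝ) ≤ X * M)
    (conn : ∀ M : ℕ, M ≤ Q → ∀ w ∈ V,
      (M : ℝ) ≤ X * ((U.filter (fun u => u - w ∈ box M)).card : ℝ))
    (f : ℤ × ℤ → ℂ) (hf1 : ∀ w ∈ V, ‖f w‖ ≤ 1) :
    X ^ 4 * ∑ θ ∈ (R1 P).filter (fun θ => ¬ ((T θ.1).card : ℝ) ≤ X ^ 43 * ‖tau θ.1 (T θ.1) θ.2‖),
      gT T θ * ‖hh r V f θ‖ ≤ Q * V.card + (Q : ℝ) ^ 3 := by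
  classical
  have hC1 := one_le_C1
  have hX0 : 0 < X := by linarith
  obtain ⟨h1, h2⟩ := lkl 9 hX hP hQ hQX hU hUc hVc dens conn f hf1
  rw [show 2 * 9 + 6 = 24 from rfl] at h1 h2
  rw [show 3 * 9 + 12 = 39 from rfl] at h1
  have hnV : ∀ θ, ‖hh r V f θ‖ ≤ V.card := by
    intro θ
    rw [hh, hf]
    refine (norm_sum_le _ _).trans ?_
    calc ∑ w ∈ V, ‖f w * e2 (fx θ) (fy r θ) w‖ ≤ ∑ w ∈ V, (1 : ℝ) := by
          refine Finset.sum_le_sum (fun w hw => ?_)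
          rw [norm_mul, norm_e2, mul_one]
          exact hf1 w hw
      _ = V.card := by simp
  rw [← Finset.sum_filter_add_sum_filter_not _
    (fun θ => (Q : ℝ) ^ 2 ≤ X ^ 24 * ‖hh r V f θ‖), mul_add]
  refine add_le_add ?_ ?_
  · refine one_cell_large hX0 (F := (R1 P).filter
      (fun θ => (Q : ℝ) ^ 2 ≤ X ^ 24 * ‖hh r V f θ‖)) ?_ (Nat.cast_nonneg _) _ _
      (fun _ _ => norm_nonneg _) (fun θ _ => hnV θ) ?_ h1
    · intro θ hθ
      rw [Finset.mem_filter, Finset.mem_filter] at hθ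
      rw [Finset.mem_filter]
      exact ⟨hθ.1.1, hθ.2⟩
    · intro θ hθ
      rw [Finset.mem_filter, Finset.mem_filter] at hθ
      have h4 := hθ.1.2
      rw [not_le] at h4
      have h5 := T_pos hP T hT hX0 (mem_R1.mp hθ.1.1).1
      rw [gT, mul_div_assoc', div_le_one h5]
      exact h4.le
  · refine one_cell_small hX0 (R := R1 P) (F := (R1 P).filter
      (fun θ => ¬ (Q : ℝ) ^ 2 ≤ X ^ 24 * ‖hh r V f θ‖)) ?_
      ((Finset.filter_subset _ _).trans (Finset.filter_subset _ _)) (Nat.cast_nonneg _) _ _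
      (sum_gT_sq hX0 hP hQ T hT) h2
    intro θ hθ
    rw [Finset.mem_filter, Finset.mem_filter] at hθ
    rw [Finset.mem_filter]
    exact ⟨hθ.1.1, hθ.2⟩

end Vale.Agent.P015.H222
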