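import Vale.Agent.P015.R2.H222.Level2

/-! Level frequencies, part 3: conclusion. -/

namespace Vale.Agent.P015.H222

open Finset Vale.Agent.P001 Vale.Agent.P006.CLS
open scoped ComplexConjugate Pointwise

/-- the primes of the level at which all coefficients are small -/
noncomputable def badP (r : ℕ → ℤ) (P : Finset ℕ) (W : Finset (ℤ × ℤ)) (f : ℤ × ℤ → ℂ) (Y : ℝ) :
    Finset ℕ := by
  classical
  exact P.filter (fun p => ∀ a ∈ Icc 1 (p - 1), Y * ‖hh r W f ⟨p, a⟩‖ < W.card)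

theorem mem_badP {r : ℕ → ℤ} {P : Finset ℕ} {W : Finset (ℤ × ℤ)} {f : ℤ × ℤ → ℂ} {Y : ℝ} {p : ℕ} :
    p ∈ badP r P W f Y ↔ p ∈ P ∧ ∀ a ∈ Icc 1 (p - 1), Y * ‖hh r W f ⟨p, a⟩‖ < W.card := by
  unfold badP
  simp only [Finset.mem_filter]

/-- **Level frequencies** -/
theorem level_freq {X : ℝ} (hX : 4 * C1 ≤ X) {r : ℕ → ℤ} {P : Finset ℕ} (hP : Rts r P) {Q : ℕ}
    (hQ : ∀ p ∈ P, p ≤ Q) (hQX : 4 * X ^ 26 ≤ Q)
    (T : ∀ p : ℕ, Finset (ZMod p)) (hT : ∀ p ∈ P, (p : ℝ) ≤ X * (T p).card)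
    {W : Finset (ℤ × ℤ)}
    (hm : ∀ p ∈ P, ∀ w ∈ W, ((lf (r p) w : ℤ) : ZMod p) ∉ T p)
    (dens : ∀ M : ℕ, 1 ≤ M → M ≤ 2 * Q ^ 2 → ∀ z,
      ((W.filter (fun w => w - z ∈ box M)).card : ℝ) ≤ X * M)
    (conn : ∀ M : ℕ, M ≤ Q ^ 2 → ∀ w ∈ W,
      (M : ℝ) ≤ X * ((W.filter (fun u => u - w ∈ box M)).card : ℝ))
    (f : ℤ × ℤ → ℂ) (hf1 : ∀ w ∈ W, ‖f w‖ ≤ 1) (hfs : (W.card : ℝ) ≤ X * ‖∑ w ∈ W, f w‖)
    (hW : W.Nonempty) :
    X * ((badP r P W f (X ^ 89)).card : ℝ) ≤ Q := by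
  classical
  have hC1 := one_le_C1
  have hC0 := one_le_C0
  have hX1020 : 4080 ≤ X := by rw [C1] at hX; linarith
  have hX0 : 0 < X := by linarith
  have hX1 : 1 ≤ X := by linarith
  have hn : (0 : ℝ) < W.card := by exact_mod_cast hW.card_pos
  have hQ1 : 1 ≤ Q := by
    have h0 : (1 : ℝ) ≤ X ^ 26 := one_le_pow₀ hX1
    have h1 : (1 : ℝ) ≤ Q := by linarith
    exact_mod_cast h1
  have hQ0 : (1 : ℝ) ≤ Q := by exact_mod_cast hQ1
  have hS0 : 0 < Q ^ 2 := by positivity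
  have hQS : Q ≤ Q ^ 2 := by nlinarith only [hQ1]
  set S : ℕ := Q ^ 2 with hS
  set G : (Σ _ : ℕ, ℕ) → ℝ := fun θ => ∑ b ∈ W.image (cell S),
    ‖hh r (W.filter (fun w => cell S w = b)) f θ‖ with hG
  have hG0 : ∀ θ, 0 ≤ G θ := fun θ => Finset.sum_nonneg (fun _ _ => norm_nonneg _)
  set q1 : (Σ _ : ℕ, ℕ) → Prop :=
    fun θ => ¬ ((T θ.1).card : ℝ) ≤ X ^ 43 * ‖tau θ.1 (T θ.1) θ.2‖ with hq1
  -- lower bound for each bad prime
  have h1 : ∀ p ∈ badP r P W f (X ^ 89), (W.card : ℝ) ≤ 2 * X *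
      ∑ a ∈ (Icc 1 (p - 1)).filter (fun a => q1 ⟨p, a⟩), gT T ⟨p, a⟩ * G ⟨p, a⟩ := by
    intro p hp
    obtain ⟨hpP, hp2⟩ := mem_badP.mp hp
    have h5 := T_pos hP T hT hX0 hpP
    have h2 := one_prime (X := X) (by linarith) 43 (hP p hpP).1.pos (T p) (hT p hpP) r W f
      (hm p hpP) hfs (fun a ha => (hp2 a ha).le)
    have h3 : ∑ a ∈ (Icc 1 (p - 1)).filter (fun a => ¬ ((T p).card : ℝ) ≤ X ^ 43 * ‖tau p (T p) a‖),
        ‖tau p (T p) a‖ * ‖hh r W f ⟨p, a⟩‖
        ≤ (T p).card * ∑ a ∈ (Icc 1 (p - 1)).filter (fun a => q1 ⟨p, a⟩),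
          gT T ⟨p, a⟩ * G ⟨p, a⟩ := by
      rw [Finset.mul_sum]
      refine Finset.sum_le_sum (fun a _ => ?_)
      have h6 : ‖hh r W f ⟨p, a⟩‖ ≤ G ⟨p, a⟩ := by
        rw [hh_cells r W f S]
        exact norm_sum_le _ _
      calc ‖tau p (T p) a‖ * ‖hh r W f ⟨p, a⟩‖ ≤ ‖tau p (T p) a‖ * G ⟨p, a⟩ := by gcongr
        _ = (T p).card * (gT T ⟨p, a⟩ * G ⟨p, a⟩) := by
            rw [gT]; field_simp
    have h7 : (W.card : ℝ) * (T p).card ≤ (2 * X *
        ∑ a ∈ (Icc 1 (p - 1)).filter (fun a => q1 ⟨p, a⟩), gT T ⟨p, a⟩ * G ⟨p, a⟩)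
          * (T p).card := by
      refine h2.trans ((mul_le_mul_of_nonneg_left h3 (by positivity)).trans (le_of_eq ?_))
      ring
    exact le_of_mul_le_mul_right h7 h5
  -- sum over bad primes
  have h2 : ((badP r P W f (X ^ 89)).card : ℝ) * W.card
      ≤ 2 * X * ∑ θ ∈ (R1 P).filter q1, gT T θ * G θ := by
    calc ((badP r P W f (X ^ 89)).card : ℝ) * W.card
        = ∑ p ∈ badP r P W f (X ^ 89), (W.card : ℝ) := by rw [Finset.sum_const, nsmul_eq_mul]
      _ ≤ ∑ p ∈ badP r P W f (X ^ 89), 2 * X *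
          ∑ a ∈ (Icc 1 (p - 1)).filter (fun a => q1 ⟨p, a⟩), gT T ⟨p, a⟩ * G ⟨p, a⟩ :=
          Finset.sum_le_sum h1
      _ ≤ ∑ p ∈ P, 2 * X *
          ∑ a ∈ (Icc 1 (p - 1)).filter (fun a => q1 ⟨p, a⟩), gT T ⟨p, a⟩ * G ⟨p, a⟩ := by
          apply Finset.sum_le_sum_of_subset_of_nonneg
          · intro p hp; exact (mem_badP.mp hp).1
          · intro p _ _
            refine mul_nonneg (by positivity) (Finset.sum_nonneg (fun a _ => ?_))
            exact mul_nonneg (gT_nonneg T _) (hG0 _)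
      _ = _ := by
          rw [← Finset.mul_sum]
          congr 1
          rw [Finset.sum_filter, R1, Finset.sum_sigma]
          refine Finset.sum_congr rfl (fun p _ => ?_)
          rw [Finset.sum_filter]
  -- swap
  have h3 : ∑ θ ∈ (R1 P).filter q1, gT T θ * G θ = ∑ b ∈ W.image (cell S),
      ∑ θ ∈ (R1 P).filter q1, gT T θ * ‖hh r (W.filter (fun w => cell S w = b)) f θ‖ := by
    rw [Finset.sum_comm]
    refine Finset.sum_congr rfl (fun θ _ => ?_)
    rw [hG, Finset.mul_sum]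
  have h4 : ∀ b ∈ W.image (cell S), X ^ 4 *
      ∑ θ ∈ (R1 P).filter q1, gT T θ * ‖hh r (W.filter (fun w => cell S w = b)) f θ‖
      ≤ Q * ((W.filter (fun w => cell S w = b)).card : ℝ) + (Q : ℝ) ^ 3 := by
    intro b _
    have hsub : ∀ (M : ℕ), M ≤ S → ∀ w ∈ W.filter (fun w => cell S w = b), ∀ u : ℤ × ℤ,
        u - w ∈ box M → u - corner S b ∈ box (2 * S) := by
      intro M hM w hw u hu
      have hb := cell_bounds hS0 (Finset.mem_filter.mp hw).2
      have hM' : (M : ℤ) ≤ S := by exact_mod_cast hM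
      rw [mem_box] at hu ⊢
      simp only [corner, Prod.fst_sub, Prod.snd_sub] at hu ⊢
      push_cast
      omega
    have hWb : ∀ w ∈ W.filter (fun w => cell S w = b), w - corner S b ∈ box (2 * S) := by
      intro w hw
      refine hsub 0 (Nat.zero_le _) w hw w ?_
      rw [sub_self, mem_box]
      simp
    have hUc : ((W.filter (fun w => w - corner S b ∈ box (2 * S))).card : ℝ)
        ≤ 2 * X * (Q : ℝ) ^ 2 := by
      refine (dens (2 * S) (by omega) le_rfl (corner S b)).trans (le_of_eq ?_)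
      rw [hS]; push_cast; ring
    refine one_cell hX hP hQ hQX T hT (U := W.filter (fun w => w - corner S b ∈ box (2 * S)))
      (n₀ := corner S b) (fun w hw => (Finset.mem_filter.mp hw).2) hUc ?_ ?_ ?_ f
      (fun w hw => hf1 w (Finset.mem_filter.mp hw).1)
    · refine le_trans ?_ hUc
      have : (W.filter (fun w => cell S w = b)) ⊆
          W.filter (fun w => w - corner S b ∈ box (2 * S)) := by
        intro w hw
        rw [Finset.mem_filter]
        exact ⟨(Finset.mem_filter.mp hw).1, hWb w hw⟩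
      exact_mod_cast Finset.card_le_card this
    · intro M hM1 hMQ z
      refine le_trans ?_ (dens M hM1 (by omega) z)
      have : (W.filter (fun w => w - corner S b ∈ box (2 * S))).filter (fun w => w - z ∈ box M)
          ⊆ W.filter (fun w => w - z ∈ box M) :=
        Finset.filter_subset_filter _ (Finset.filter_subset _ _)
      exact_mod_cast Finset.card_le_card this
    · intro M hMQ w hw
      refine (conn M (hMQ.trans hQS) w (Finset.mem_filter.mp hw).1).trans ?_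
      refine mul_le_mul_of_nonneg_left ?_ hX0.le
      have : W.filter (fun u => u - w ∈ box M) ⊆
          (W.filter (fun w => w - corner S b ∈ box (2 * S))).filter (fun u => u - w ∈ box M) := by
        intro u hu
        rw [Finset.mem_filter] at hu
        rw [Finset.mem_filter, Finset.mem_filter]
        exact ⟨⟨hu.1, hsub M (hMQ.trans hQS) w hw u hu.2⟩, hu.2⟩
      exact_mod_cast Finset.card_le_card this
  have h5 : X ^ 4 * ∑ θ ∈ (R1 P).filter q1, gT T θ * G θ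
      ≤ Q * W.card + (Q : ℝ) ^ 3 * ((W.image (cell S)).card : ℝ) := by
    rw [h3, Finset.mul_sum]
    refine (Finset.sum_le_sum h4).trans (le_of_eq ?_)
    rw [Finset.sum_add_distrib, ← Finset.mul_sum, Finset.sum_const, nsmul_eq_mul]
    have h6 : ∑ b ∈ W.image (cell S), ((W.filter (fun w => cell S w = b)).card : ℝ) = W.card := by
      rw [← Nat.cast_sum, ← Finset.card_eq_sum_card_image]
    rw [h6]
    ring
  have h6 : (Q : ℝ) ^ 3 * ((W.image (cell S)).card : ℝ) ≤ 9 * X * Q * W.card := by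
    have h7 := card_cells hX0.le hS0 (conn S le_rfl)
    have h8 : (S : ℝ) = (Q : ℝ) ^ 2 := by rw [hS]; push_cast; rfl
    calc (Q : ℝ) ^ 3 * ((W.image (cell S)).card : ℝ)
        = Q * ((S : ℝ) * ((W.image (cell S)).card : ℝ)) := by rw [h8]; ring
      _ ≤ Q * (9 * X * W.card) := by gcongr
      _ = _ := by ring
  have h7 : X ^ 4 * ∑ θ ∈ (R1 P).filter q1, gT T θ * G θ ≤ 10 * X * Q * W.card := by
    refine (h5.trans (add_le_add le_rfl h6)).trans ?_
    have h9 : (Q : ℝ) * W.card ≤ X * Q * W.card := by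
      have : 1 * ((Q : ℝ) * W.card) ≤ X * (Q * W.card) := by gcongr
      linarith
    linarith
  have h8 : X ^ 4 * (((badP r P W f (X ^ 89)).card : ℝ) * W.card)
      ≤ 20 * X ^ 2 * Q * W.card := by
    calc X ^ 4 * (((badP r P W f (X ^ 89)).card : ℝ) * W.card)
        ≤ X ^ 4 * (2 * X * ∑ θ ∈ (R1 P).filter q1, gT T θ * G θ) := by gcongr
      _ = 2 * X * (X ^ 4 * ∑ θ ∈ (R1 P).filter q1, gT T θ * G θ) := by ring
      _ ≤ 2 * X * (10 * X * Q * W.card) := by gcongr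
      _ = _ := by ring
  have h9 : (X ^ 3 * W.card) * (X * ((badP r P W f (X ^ 89)).card : ℝ))
      ≤ (X ^ 3 * W.card) * Q := by
    calc (X ^ 3 * W.card) * (X * ((badP r P W f (X ^ 89)).card : ℝ))
        = X ^ 4 * (((badP r P W f (X ^ 89)).card : ℝ) * W.card) := by ring
      _ ≤ 20 * X ^ 2 * Q * W.card := h8
      _ ≤ X * X ^ 2 * Q * W.card := by gcongr; linarith
      _ = _ := by ring
  exact le_of_mul_le_mul_left h9 (by positivity)

end Vale.Agent.P015.H222
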