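import Vale.Agent.P015.R2.H222.Energy

/-! Local key lemma (weighted duality in boxes of side `Q ^ 2`) for arbitrary bounded weights. -/

namespace Vale.Agent.P015.H222

open Finset Vale.Agent.P001 Vale.Agent.P006.CLS
open scoped ComplexConjugate Pointwise

/-- weighted exponential sum -/
noncomputable def hf (W : Finset (ℤ × ℤ)) (f : ℤ × ℤ → ℂ) (x y : ℝ) : ℂ :=
  ∑ w ∈ W, f w * e2 x y w

theorem ls_mul' {ι : Type*} (R : Finset ι) (x y : ι → ℝ) {δ : ℝ} (hδ : 0 < δ)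
    (hδ1 : δ ≤ 1) (hsep : Sep R x y δ) (L : ℕ) (n₀ : ℤ × ℤ) (A B : Finset (ℤ × ℤ))
    (hT : ∀ w ∈ A + B, w - n₀ ∈ box L) :
    ∑ i ∈ R, (‖hg A (x i) (y i)‖ * ‖hg B (x i) (y i)‖) ^ 2
      ≤ C0 * ((L : ℝ) + 1 / δ) ^ 2 * ∑ z ∈ A + B, (rr A B z : ℝ) ^ 2 := by
  have h := primal_ls R x y hδ hδ1 hsep L n₀ (A + B) hT (fun z => (rr A B z : ℂ))
  simp only [Complex.norm_natCast] at h
  refine le_trans (le_of_eq ?_) h
  refine Finset.sum_congr rfl (fun i _ => ?_)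
  rw [← norm_mul, hg_mul]

theorem sq_le_hf {ι : Type*} (R : Finset ι) (x y : ι → ℝ) (V : Finset (ℤ × ℤ))
    (f : ℤ × ℤ → ℂ) (hf1 : ∀ w ∈ V, ‖f w‖ ≤ 1) (b : ι → ℂ) {T : ℝ}
    (hT : (T : ℂ) = ∑ θ ∈ R, b θ * hf V f (x θ) (y θ)) :
    T ^ 2 ≤ V.card * ∑ w ∈ V, ‖∑ θ ∈ R, b θ * e2 (x θ) (y θ) w‖ ^ 2 := by
  have h1 : (T : ℂ) = ∑ w ∈ V, f w * ∑ θ ∈ R, b θ * e2 (x θ) (y θ) w := by
    rw [hT]
    simp only [hf, Finset.mul_sum]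
    rw [Finset.sum_comm]
    refine Finset.sum_congr rfl (fun w _ => Finset.sum_congr rfl (fun θ _ => ?_))
    ring
  have h2 : |T| ≤ ∑ w ∈ V, ‖∑ θ ∈ R, b θ * e2 (x θ) (y θ) w‖ := by
    have h3 : |T| = ‖(T : ℂ)‖ := by rw [Complex.norm_real, Real.norm_eq_abs]
    rw [h3, h1]
    refine (norm_sum_le _ _).trans (Finset.sum_le_sum (fun w hw => ?_))
    rw [norm_mul]
    exact mul_le_of_le_one_left (norm_nonneg _) (hf1 w hw)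
  calc T ^ 2 = |T| ^ 2 := (sq_abs T).symm
    _ ≤ (∑ w ∈ V, ‖∑ θ ∈ R, b θ * e2 (x θ) (y θ) w‖) ^ 2 :=
        pow_le_pow_left₀ (abs_nonneg _) h2 2
    _ ≤ _ := by
        have := sq_sum_le_card_mul_sum_sq (s := V)
          (f := fun w => ‖∑ θ ∈ R, b θ * e2 (x θ) (y θ) w‖)
        exact this

theorem dual1 (R : Finset (Σ _ : ℕ, ℕ)) (r : ℕ → ℤ) {V U : Finset (ℤ × ℤ)} {M L : ℕ} (hL : L ≤ M)
    {c : ℝ} (hc : ∀ w ∈ V, c ≤ ((U.filter (fun u => u - w ∈ box L)).card : ℝ))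
    (b : (Σ _ : ℕ, ℕ) → ℂ) :
    c * ((M : ℝ) - L) ^ 2 * ∑ w ∈ V, ‖∑ θ ∈ R, b θ * e2 (fx θ) (fy r θ) w‖ ^ 2
      ≤ ∑ θ ∈ R, ∑ θ' ∈ R, ‖b θ‖ * ‖b θ'‖ * (nd r U θ θ' * nd r (sq2 M) θ θ' ^ 2) := by
  have h2 := fiber_lower V (U ×ˢ (sq2 M ×ˢ sq2 M)) (fun q => q.1 + q.2.1 - q.2.2)
    (fun w => ‖∑ θ ∈ R, b θ * e2 (fx θ) (fy r θ) w‖ ^ 2) (fun w => by positivity)
    (fun w hw => count_lower hL (hc w hw))
  have h3 := sqexp R fx (fy r) b (U ×ˢ (sq2 M ×ˢ sq2 M)) (fun q => q.1 + q.2.1 - q.2.2)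
  refine h2.trans (h3.trans (le_of_eq ?_))
  refine Finset.sum_congr rfl (fun θ _ => Finset.sum_congr rfl (fun θ' _ => ?_))
  rw [sum_triple]
  rfl

theorem dual2 (P : Finset ℕ) (r : ℕ → ℤ) (U : Finset (ℤ × ℤ)) (M : ℕ)
    (F : (Σ _ : ℕ, ℕ) → ℝ) (hF : ∀ θ, 0 ≤ F θ) :
    ∑ θ ∈ R1 P, ∑ θ' ∈ R1 P, F θ * F θ' * (nd r U θ θ' * nd r (sq2 M) θ θ' ^ 2)
      ≤ U.card * (∑ θ ∈ R1 P, ∑ θ' ∈ R1 P, F θ * F θ' * ker r M θ θ')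
        + 2 * ∑ e ∈ R2 P, (F e.1 * F e.2 * nd r (sq2 M) e.1 e.2)
          * (nd r U e.1 e.2 * nd r (sq2 M) e.1 e.2) := by
  set f : (Σ _ : ℕ, ℕ) → (Σ _ : ℕ, ℕ) → ℝ := fun θ θ' =>
    (F θ * F θ' * nd r (sq2 M) θ θ') * (nd r U θ θ' * nd r (sq2 M) θ θ') with hf
  have hf0 : ∀ θ θ', 0 ≤ f θ θ' := by
    intro θ θ'
    have := hF θ
    have := hF θ'
    have := nd_nonneg r U θ θ'
    have := nd_nonneg r (sq2 M) θ θ'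
    simp only [hf]
    positivity
  have hfs : ∀ θ θ', f θ θ' = f θ' θ := by
    intro θ θ'
    simp only [hf]
    rw [nd_symm r U θ θ', nd_symm r (sq2 M) θ θ']
    ring
  have h1 : ∀ θ θ', F θ * F θ' * (nd r U θ θ' * nd r (sq2 M) θ θ' ^ 2)
      ≤ U.card * (F θ * F θ' * ker r M θ θ')
        + ((if θ.1 < θ'.1 then f θ θ' else 0) + (if θ'.1 < θ.1 then f θ' θ else 0)) := by
    intro θ θ'
    have e1 : F θ * F θ' * (nd r U θ θ' * nd r (sq2 M) θ θ' ^ 2) = f θ θ' := by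
      simp only [hf]; ring
    rcases lt_trichotomy θ.1 θ'.1 with h | h | h
    · rw [e1, if_pos h, if_neg (not_lt.mpr h.le), ker, if_neg h.ne]
      simp
    · rw [if_neg (by rw [h]; exact lt_irrefl _), if_neg (by rw [h]; exact lt_irrefl _), ker,
        if_pos h, add_zero, add_zero]
      have h2 : nd r U θ θ' ≤ U.card := norm_hg_le _ _ _
      have h3 : 0 ≤ F θ * F θ' * nd r (sq2 M) θ θ' ^ 2 := by
        have := hF θ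
        have := hF θ'
        positivity
      calc F θ * F θ' * (nd r U θ θ' * nd r (sq2 M) θ θ' ^ 2)
          = nd r U θ θ' * (F θ * F θ' * nd r (sq2 M) θ θ' ^ 2) := by ring
        _ ≤ U.card * (F θ * F θ' * nd r (sq2 M) θ θ' ^ 2) :=
            mul_le_mul_of_nonneg_right h2 h3
        _ = _ := rfl
    · rw [e1, if_neg (not_lt.mpr h.le), if_pos h, ker, if_neg h.ne', hfs]
      simp
  calc ∑ θ ∈ R1 P, ∑ θ' ∈ R1 P, F θ * F θ' * (nd r U θ θ' * nd r (sq2 M) θ θ' ^ 2)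
      ≤ ∑ θ ∈ R1 P, ∑ θ' ∈ R1 P, (U.card * (F θ * F θ' * ker r M θ θ')
        + ((if θ.1 < θ'.1 then f θ θ' else 0) + (if θ'.1 < θ.1 then f θ' θ else 0))) :=
        Finset.sum_le_sum (fun θ _ => Finset.sum_le_sum (fun θ' _ => h1 θ θ'))
    _ = U.card * (∑ θ ∈ R1 P, ∑ θ' ∈ R1 P, F θ * F θ' * ker r M θ θ')
        + (∑ e ∈ R2 P, f e.1 e.2 + ∑ e ∈ R2 P, f e.1 e.2) := by
        simp_rw [Finset.sum_add_distrib, Finset.mul_sum]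
        congr 1
        congr 1
        · exact sum_R2 P f
        · rw [Finset.sum_comm]
          exact sum_R2 P f
    _ = _ := by ring

theorem tdiff' {r : ℕ → ℤ} {P : Finset ℕ} (hP : Rts r P) {Q : ℕ} (hQ : ∀ p ∈ P, p ≤ Q)
    (hQ1 : 1 ≤ Q) {U : Finset (ℤ × ℤ)} {n₀ : ℤ × ℤ} (hU : ∀ w ∈ U, w - n₀ ∈ box (2 * Q ^ 2))
    {M : ℕ} (hM : M ≤ Q)
    {ν A : ℝ} (hν : ∀ z, ((U.filter (fun w => w - z ∈ box M)).card : ℝ) ≤ ν)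
    (F : (Σ _ : ℕ, ℕ) → ℝ) (hF : ∀ θ, 0 ≤ F θ) (hA : ∀ θ ∈ R1 P, F θ ≤ A) :
    (∑ e ∈ R2 P, (F e.1 * F e.2 * nd r (sq2 M) e.1 e.2)
          * (nd r U e.1 e.2 * nd r (sq2 M) e.1 e.2)) ^ 2
      ≤ (A ^ 2 * ((∑ θ ∈ R1 P, F θ ^ 2) * (9 * C0 * (Q : ℝ) ^ 2 * (M : ℝ) ^ 2)))
        * (25 * C0 * (Q : ℝ) ^ 4 * (ν * (U.card * (M : ℝ) ^ 2))) := by
  have hC0 := one_le_C0
  have hQ0 : (1 : ℝ) ≤ Q := by exact_mod_cast hQ1
  refine (Finset.sum_mul_sq_le_sq_mul_sq _ _ _).trans ?_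
  have hAA : ∑ e ∈ R2 P, (F e.1 * F e.2 * nd r (sq2 M) e.1 e.2) ^ 2
      ≤ A ^ 2 * ((∑ θ ∈ R1 P, F θ ^ 2) * (9 * C0 * (Q : ℝ) ^ 2 * (M : ℝ) ^ 2)) := by
    calc ∑ e ∈ R2 P, (F e.1 * F e.2 * nd r (sq2 M) e.1 e.2) ^ 2
        ≤ ∑ e ∈ R1 P ×ˢ R1 P, A ^ 2 * (F e.1 ^ 2 * nd r (sq2 M) e.1 e.2 ^ 2) := by
          refine le_trans (Finset.sum_le_sum (fun e he => ?_))
            (Finset.sum_le_sum_of_subset_of_nonneg (Finset.filter_subset _ _) ?_)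
          · have he2 := (mem_R2.mp he).1.2
            have h1 := hA _ he2
            have h3 : F e.2 ^ 2 ≤ A ^ 2 := pow_le_pow_left₀ (hF _) h1 2
            calc (F e.1 * F e.2 * nd r (sq2 M) e.1 e.2) ^ 2
                = F e.2 ^ 2 * (F e.1 ^ 2 * nd r (sq2 M) e.1 e.2 ^ 2) := by ring
              _ ≤ _ := mul_le_mul_of_nonneg_right h3 (by positivity)
          · intro _ _ _; positivity
      _ = A ^ 2 * ∑ θ ∈ R1 P, F θ ^ 2 * ∑ θ' ∈ R1 P, nd r (sq2 M) θ θ' ^ 2 := by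
          rw [Finset.sum_product, Finset.mul_sum]
          refine Finset.sum_congr rfl (fun θ _ => ?_)
          rw [← Finset.mul_sum, Finset.mul_sum _ _ (F θ ^ 2)]
      _ ≤ A ^ 2 * ∑ θ ∈ R1 P, F θ ^ 2 * (9 * C0 * (Q : ℝ) ^ 2 * (M : ℝ) ^ 2) := by
          refine mul_le_mul_of_nonneg_left (Finset.sum_le_sum (fun θ _ => ?_)) (by positivity)
          exact mul_le_mul_of_nonneg_left (row_diff hP hQ hQ1 hM _ _) (by positivity)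
      _ = _ := by rw [← Finset.sum_mul]
  have hB : ∑ e ∈ R2 P, (nd r U e.1 e.2 * nd r (sq2 M) e.1 e.2) ^ 2
      ≤ 25 * C0 * (Q : ℝ) ^ 4 * (ν * (U.card * (M : ℝ) ^ 2)) := by
    have hMQ : (M : ℤ) ≤ ((Q ^ 2 : ℕ) : ℤ) := by
      have : M ≤ Q ^ 2 := hM.trans (by nlinarith only [hQ1])
      exact_mod_cast this
    have h := ls_mul' (R2 P) (fun e => fx e.1 - fx e.2) (fun e => fy r e.1 - fy r e.2)
      (δ := 1 / (2 * (Q : ℝ) ^ 2)) (by positivity)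
      (by rw [div_le_one (by positivity)]; nlinarith) (sep_R2 hP hQ hQ1) (3 * Q ^ 2) n₀ U (sq2 M)
      (by
        intro w hw
        obtain ⟨u, hu, v, hv, rfl⟩ := Finset.mem_add.mp hw
        have h1 := mem_box.mp (hU u hu)
        have h2 := mem_box.mp (sq2_box hv)
        rw [mem_box]
        simp only [Prod.fst_add, Prod.snd_add, Prod.fst_sub, Prod.snd_sub] at h1 h2 ⊢
        push_cast at h1 hMQ ⊢
        omega)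
    refine h.trans ?_
    have h2 := sum_rr_sq hν
    have h3 : C0 * (((3 * Q ^ 2 : ℕ) : ℝ) + 1 / (1 / (2 * (Q : ℝ) ^ 2))) ^ 2
        = 25 * C0 * (Q : ℝ) ^ 4 := by
      rw [one_div_one_div]; push_cast; ring
    rw [h3]
    exact mul_le_mul_of_nonneg_left h2 (by positivity)
  refine mul_le_mul hAA hB (Finset.sum_nonneg (fun _ _ => by positivity)) ?_
  have : 0 ≤ ∑ θ ∈ R1 P, F θ ^ 2 := Finset.sum_nonneg (fun _ _ => by positivity)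
  positivity

/-- weighted duality in a box -/
theorem dual3 {r : ℕ → ℤ} {P : Finset ℕ} (hP : Rts r P) {Q : ℕ} (hQ : ∀ p ∈ P, p ≤ Q)
    (hQ1 : 1 ≤ Q) {V U : Finset (ℤ × ℤ)} {n₀ : ℤ × ℤ} (hU : ∀ w ∈ U, w - n₀ ∈ box (2 * Q ^ 2))
    {M : ℕ} (hM : M ≤ Q) (hM1 : 1 ≤ M) (hM2 : 2 * Q ≤ M ^ 2)
    {ν A c : ℝ} (hν : ∀ z, ((U.filter (fun w => w - z ∈ box M)).card : ℝ) ≤ ν)
    (hν0 : 0 ≤ ν) (hA0 : 0 ≤ A) (hc0 : 0 ≤ c)
    (hc : ∀ w ∈ V, c ≤ ((U.filter (fun u => u - w ∈ box (M / 2))).card : ℝ))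
    (f : ℤ × ℤ → ℂ) (hf1 : ∀ w ∈ V, ‖f w‖ ≤ 1)
    (b : (Σ _ : ℕ, ℕ) → ℂ) (hA : ∀ θ ∈ R1 P, ‖b θ‖ ≤ A) {T : ℝ}
    (hT : (T : ℂ) = ∑ θ ∈ R1 P, b θ * hf V f (fx θ) (fy r θ)) :
    c * T ^ 2 ≤ V.card * (16 * C0 * (M : ℝ) ^ 2 * U.card * (∑ θ ∈ R1 P, ‖b θ‖ ^ 2)
      + 120 * C0 * (Q : ℝ) ^ 3 * A * Real.sqrt ((∑ θ ∈ R1 P, ‖b θ‖ ^ 2) * (ν * U.card))) := by
  have hC0 := one_le_C0
  have hQ0 : (1 : ℝ) ≤ Q := by exact_mod_cast hQ1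
  have hM0 : (1 : ℝ) ≤ M := by exact_mod_cast hM1
  set S : ℝ := ∑ θ ∈ R1 P, ‖b θ‖ ^ 2 with hS
  have hS0 : 0 ≤ S := Finset.sum_nonneg (fun _ _ => by positivity)
  have hn : (0 : ℝ) ≤ (U.card : ℝ) := Nat.cast_nonneg _
  have h1 := sq_le_hf (R1 P) fx (fy r) V f hf1 b hT
  have h2 := dual1 (R1 P) r (M := M) (L := M / 2) (Nat.div_le_self M 2) hc b
  have h3 := dual2 P r U M (fun θ => ‖b θ‖) (fun θ => norm_nonneg _)
  have h4 := tdiff' hP hQ hQ1 hU hM hν (fun θ => ‖b θ‖) (fun θ => norm_nonneg _) hA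
  have h5 : ∑ θ ∈ R1 P, ∑ θ' ∈ R1 P, ‖b θ‖ * ‖b θ'‖ * ker r M θ θ' ≤ 4 * C0 * (M : ℝ) ^ 4 * S :=
    schur (R1 P) (fun θ => ‖b θ‖) (ker r M) (ker_nonneg r M) (ker_symm r M)
      (fun θ hθ => row_same hP hQ hM2 hM1 hθ)
  set Z : ℝ := ∑ e ∈ R2 P, (‖b e.1‖ * ‖b e.2‖ * nd r (sq2 M) e.1 e.2)
          * (nd r U e.1 e.2 * nd r (sq2 M) e.1 e.2) with hZ
  have hZ1 : Z ≤ 15 * C0 * (Q : ℝ) ^ 3 * (M : ℝ) ^ 2 * A * Real.sqrt (S * (ν * U.card)) := by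
    refine (le_abs_self Z).trans (abs_le_of_sq_le_sq ?_ (by positivity))
    refine h4.trans (le_of_eq ?_)
    rw [mul_pow, Real.sq_sqrt (by positivity)]
    ring
  have hM2' : ((M : ℝ) / 2) ^ 2 ≤ ((M : ℝ) - (M / 2 : ℕ)) ^ 2 := by
    refine pow_le_pow_left₀ (by positivity) ?_ 2
    have : ((M / 2 : ℕ) : ℝ) ≤ (M : ℝ) / 2 := Nat.cast_div_le
    linarith
  set G : ℝ := ∑ w ∈ V, ‖∑ θ ∈ R1 P, b θ * e2 (fx θ) (fy r θ) w‖ ^ 2 with hG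
  have hG0 : 0 ≤ G := Finset.sum_nonneg (fun _ _ => by positivity)
  have h6 : c * ((M : ℝ) / 2) ^ 2 * G ≤ U.card * (4 * C0 * (M : ℝ) ^ 4 * S)
      + 2 * (15 * C0 * (Q : ℝ) ^ 3 * (M : ℝ) ^ 2 * A * Real.sqrt (S * (ν * U.card))) := by
    calc c * ((M : ℝ) / 2) ^ 2 * G ≤ c * ((M : ℝ) - (M / 2 : ℕ)) ^ 2 * G := by
          refine mul_le_mul_of_nonneg_right ?_ hG0
          exact mul_le_mul_of_nonneg_left hM2' hc0
      _ ≤ _ := h2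
      _ ≤ _ := h3
      _ ≤ _ := by
          refine add_le_add (mul_le_mul_of_nonneg_left h5 hn) ?_
          exact mul_le_mul_of_nonneg_left hZ1 (by norm_num)
  have h7 : c * G ≤ 16 * C0 * (M : ℝ) ^ 2 * U.card * S
      + 120 * C0 * (Q : ℝ) ^ 3 * A * Real.sqrt (S * (ν * U.card)) := by
    have hMp : (0 : ℝ) < ((M : ℝ) / 2) ^ 2 := by positivity
    refine le_of_mul_le_mul_left (le_trans (le_of_eq ?_) (h6.trans (le_of_eq ?_))) hMp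
    · ring
    · ring
  calc c * T ^ 2 ≤ c * (V.card * G) := mul_le_mul_of_nonneg_left h1 hc0
    _ = V.card * (c * G) := by ring
    _ ≤ _ := mul_le_mul_of_nonneg_left h7 (Nat.cast_nonneg _)

end Vale.Agent.P015.H222
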