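import Vale.Agent.P015.R2.H222.Lkl

namespace Vale.Agent.P015.H222

open Finset Vale.Agent.P001 Vale.Agent.P006.CLS
open scoped ComplexConjugate Pointwise

/-- the exponential sum of `f` over `V` at `θ` -/
noncomputable def hh (r : ℕ → ℤ) (V : Finset (ℤ × ℤ)) (f : ℤ × ℤ → ℂ) (θ : Σ _ : ℕ, ℕ) : ℂ :=
  hf V f (fx θ) (fy r θ)

/-- the constant of `dual4` -/
noncomputable def C1 : ℝ := 1020 * C0

theorem C1_pos : 0 < C1 := by
  have := one_le_C0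
  rw [C1]; positivity

theorem one_le_C1 : 1 ≤ C1 := by
  have := one_le_C0
  rw [C1]; linarith

/-- `dual3` with the density and connectedness hypotheses -/
theorem dual4 {X : ℝ} (hX1 : 1 ≤ X) {r : ℕ → ℤ} {P : Finset ℕ} (hP : Rts r P) {Q : ℕ}
    (hQ : ∀ p ∈ P, p ≤ Q)
    (hQ1 : 1 ≤ Q) {V U : Finset (ℤ × ℤ)} {n₀ : ℤ × ℤ} (hU : ∀ w ∈ U, w - n₀ ∈ box (2 * Q ^ 2))
    (hUc : (U.card : ℝ) ≤ 2 * X * (Q : ℝ) ^ 2) (hVc : (V.card : ℝ) ≤ 2 * X * (Q : ℝ) ^ 2)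
    {M : ℕ} (hM : M ≤ Q) (hM1 : 2 ≤ M) (hM2 : 2 * Q ≤ M ^ 2)
    (dens : ∀ z, ((U.filter (fun w => w - z ∈ box M)).card : ℝ) ≤ X * M)
    (conn : ∀ w ∈ V, ((M / 2 : ℕ) : ℝ) ≤ X * ((U.filter (fun u => u - w ∈ box (M / 2))).card : ℝ))
    {A : ℝ} (hA0 : 0 ≤ A)
    (f : ℤ × ℤ → ℂ) (hf1 : ∀ w ∈ V, ‖f w‖ ≤ 1)
    (b : (Σ _ : ℕ, ℕ) → ℂ) (hA : ∀ θ ∈ R1 P, ‖b θ‖ ≤ A) {T : ℝ}
    (hT : (T : ℂ) = ∑ θ ∈ R1 P, b θ * hh r V f θ) :
    T ^ 2 ≤ 2 * C1 * X ^ 3 * M * (Q : ℝ) ^ 4 * (∑ θ ∈ R1 P, ‖b θ‖ ^ 2) ∨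
      M * T ^ 4 ≤ 4 * C1 ^ 2 * X ^ 6 * (Q : ℝ) ^ 12 * A ^ 2 * (∑ θ ∈ R1 P, ‖b θ‖ ^ 2) := by
  have hC0 := one_le_C0
  have hQ0 : (1 : ℝ) ≤ Q := by exact_mod_cast hQ1
  have hM0 : (2 : ℝ) ≤ M := by exact_mod_cast hM1
  have hX0 : 0 < X := by linarith
  set S : ℝ := ∑ θ ∈ R1 P, ‖b θ‖ ^ 2 with hS
  have hS0 : 0 ≤ S := Finset.sum_nonneg (fun _ _ => by positivity)
  have hM3 : (M : ℝ) / 3 ≤ ((M / 2 : ℕ) : ℝ) := by
    have h1 : M ≤ 3 * (M / 2) := by omega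
    have h2 : (M : ℝ) ≤ 3 * ((M / 2 : ℕ) : ℝ) := by exact_mod_cast h1
    linarith
  have h1 := dual3 hP hQ hQ1 hU hM (by omega) hM2 (ν := X * M) (A := A) (c := M / (3 * X)) dens
    (by positivity) hA0 (by positivity) (fun w hw => by
      have h2 := conn w hw
      rw [div_le_iff₀ (by positivity)]
      nlinarith) f hf1 b hA hT
  rw [← hS] at h1
  have hU0 : (0 : ℝ) ≤ U.card := Nat.cast_nonneg _
  have hsq : Real.sqrt (S * (X * M * U.card)) ≤ X * Q * Real.sqrt (2 * S * M) := by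
    have e : X * Q * Real.sqrt (2 * S * M) = Real.sqrt ((X * Q) ^ 2 * (2 * S * M)) := by
      rw [Real.sqrt_mul (sq_nonneg (X * (Q : ℝ))), Real.sqrt_sq (by positivity)]
    rw [e]
    apply Real.sqrt_le_sqrt
    have h3 : S * (X * M * U.card) ≤ S * (X * M * (2 * X * (Q : ℝ) ^ 2)) := by gcongr
    nlinarith only [h3]
  have h2 : (M : ℝ) / (3 * X) * T ^ 2 ≤ 2 * X * (Q : ℝ) ^ 2 *
      (16 * C0 * (M : ℝ) ^ 2 * (2 * X * (Q : ℝ) ^ 2) * S
        + 120 * C0 * (Q : ℝ) ^ 3 * A * (X * Q * Real.sqrt (2 * S * M))) := by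
    refine h1.trans ?_
    gcongr
  have h3 : T ^ 2 ≤ 192 * C0 * X ^ 3 * M * (Q : ℝ) ^ 4 * S
      + 720 * C0 * X ^ 3 * (Q : ℝ) ^ 6 * A * Real.sqrt (2 * S * M) / M := by
    have h4 : (0 : ℝ) < M / (3 * X) := by positivity
    refine le_of_mul_le_mul_left (h2.trans (le_of_eq ?_)) h4
    field_simp
    ring
  rcases le_total (720 * C0 * X ^ 3 * (Q : ℝ) ^ 6 * A * Real.sqrt (2 * S * M) / M)
    (192 * C0 * X ^ 3 * M * (Q : ℝ) ^ 4 * S) with h | h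
  · left
    refine (h3.trans (add_le_add le_rfl h)).trans ?_
    rw [C1]
    have : 0 ≤ C0 * X ^ 3 * M * (Q : ℝ) ^ 4 * S := by positivity
    nlinarith only [this]
  · right
    have h5 := h3.trans (add_le_add h le_rfl)
    rw [← two_mul, mul_div_assoc', le_div_iff₀ (by positivity)] at h5
    have h6 : (T ^ 2 * M) ^ 2 ≤ (2 * (720 * C0 * X ^ 3 * (Q : ℝ) ^ 6 * A * Real.sqrt (2 * S * M))) ^ 2 :=
      pow_le_pow_left₀ (by positivity) h5 2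
    have h7 : (2 * (720 * C0 * X ^ 3 * (Q : ℝ) ^ 6 * A * Real.sqrt (2 * S * M))) ^ 2
        = 1440 ^ 2 * C0 ^ 2 * X ^ 6 * (Q : ℝ) ^ 12 * A ^ 2 * (2 * S * M) := by
      rw [mul_pow, mul_pow (720 * C0 * X ^ 3 * (Q : ℝ) ^ 6 * A), Real.sq_sqrt (by positivity)]
      ring
    rw [h7] at h6
    have hMp : (0 : ℝ) < M := by linarith
    refine le_of_mul_le_mul_left (le_trans ?_ (h6.trans ?_)) hMp
    · nlinarith only [h6]
    · rw [C1]
      have : 0 ≤ C0 ^ 2 * X ^ 6 * (Q : ℝ) ^ 12 * A ^ 2 * S * M := by positivity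
      nlinarith only [this]

/-- choice of the smoothing length -/
theorem choose_M {X : ℝ} (hX : 1 ≤ X) {e : ℕ} {Q : ℕ} (hQ : 4 * X ^ (2 * e) ≤ Q) :
    ∃ M : ℕ, 2 ≤ M ∧ (Q : ℝ) ≤ X ^ e * M ∧ X ^ e * M ≤ 2 * Q ∧ 2 * Q ≤ M ^ 2 ∧ 1 ≤ Q ∧
      (1 ≤ e → 2 ≤ X → M ≤ Q) := by
  have hXe : 1 ≤ X ^ e := one_le_pow₀ hX
  have hXe0 : 0 < X ^ e := by linarith
  have hX2 : X ^ (2 * e) = X ^ e * X ^ e := by rw [← pow_add]; congr 1; ring
  rw [hX2] at hQ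
  have hQ4 : 4 ≤ (Q : ℝ) := by nlinarith
  have hQX : 4 * X ^ e ≤ Q := by nlinarith
  refine ⟨⌈(Q : ℝ) / X ^ e⌉₊, ?_, ?_, ?_, ?_, ?_, ?_⟩
  · have h1 : (4 : ℝ) ≤ Q / X ^ e := by rw [le_div_iff₀ hXe0]; exact hQX
    have h2 := h1.trans (Nat.le_ceil _)
    have h3 : 4 ≤ ⌈(Q : ℝ) / X ^ e⌉₊ := by exact_mod_cast h2
    omega
  · have h1 := Nat.le_ceil ((Q : ℝ) / X ^ e)
    rw [div_le_iff₀ hXe0] at h1
    linarith
  · have h1 := (Nat.ceil_lt_add_one (show 0 ≤ (Q : ℝ) / X ^ e by positivity)).le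
    calc X ^ e * (⌈(Q : ℝ) / X ^ e⌉₊ : ℝ) ≤ X ^ e * (Q / X ^ e + 1) :=
          mul_le_mul_of_nonneg_left h1 hXe0.le
      _ = Q + X ^ e := by field_simp
      _ ≤ 2 * Q := by linarith
  · have h1 := Nat.le_ceil ((Q : ℝ) / X ^ e)
    have h2 : 2 * (Q : ℝ) ≤ (⌈(Q : ℝ) / X ^ e⌉₊ : ℝ) ^ 2 := by
      have h3 : ((Q : ℝ) / X ^ e) ^ 2 ≤ (⌈(Q : ℝ) / X ^ e⌉₊ : ℝ) ^ 2 :=
        pow_le_pow_left₀ (by positivity) h1 2
      refine le_trans ?_ h3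
      rw [div_pow, le_div_iff₀ (by positivity)]
      have h4 : (X ^ e) ^ 2 = X ^ e * X ^ e := sq _
      rw [h4]
      nlinarith
    exact_mod_cast h2
  · have : (1 : ℝ) ≤ Q := by linarith
    exact_mod_cast this
  · intro he hX2'
    have h1 : X ≤ X ^ e := by
      calc X = X ^ 1 := (pow_one X).symm
        _ ≤ X ^ e := pow_le_pow_right₀ hX he
    have h5 : (Q : ℝ) / X ^ e ≤ Q := div_le_self (by positivity) hXe
    rw [Nat.ceil_le]
    exact h5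

/-- **Local key lemma.** -/
theorem lkl (a : ℕ) {X : ℝ} (hX : 4 * C1 ≤ X) {r : ℕ → ℤ} {P : Finset ℕ} (hP : Rts r P) {Q : ℕ}
    (hQ : ∀ p ∈ P, p ≤ Q) (hQX : 4 * X ^ (2 * (a + 4)) ≤ Q)
    {V U : Finset (ℤ × ℤ)} {n₀ : ℤ × ℤ} (hU : ∀ w ∈ U, w - n₀ ∈ box (2 * Q ^ 2))
    (hUc : (U.card : ℝ) ≤ 2 * X * (Q : ℝ) ^ 2) (hVc : (V.card : ℝ) ≤ 2 * X * (Q : ℝ) ^ 2)
    (dens : ∀ M : ℕ, 1 ≤ M → M ≤ Q → ∀ z,
      ((U.filter (fun w => w - z ∈ box M)).card : ℝ) ≤ X * M)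
    (conn : ∀ M : ℕ, M ≤ Q → ∀ w ∈ V,
      (M : ℝ) ≤ X * ((U.filter (fun u => u - w ∈ box M)).card : ℝ))
    (f : ℤ × ℤ → ℂ) (hf1 : ∀ w ∈ V, ‖f w‖ ≤ 1) :
    ((((R1 P).filter (fun θ => (Q : ℝ) ^ 2 ≤ X ^ (2 * a + 6) * ‖hh r V f θ‖)).card : ℝ)
      ≤ X ^ (3 * a + 12) * Q) ∧
    X ^ a * ∑ θ ∈ (R1 P).filter (fun θ => ¬ (Q : ℝ) ^ 2 ≤ X ^ (2 * a + 6) * ‖hh r V f θ‖),
      ‖hh r V f θ‖ ^ 2 ≤ (Q : ℝ) ^ 5 := by
  have hC1 := one_le_C1
  have hX1 : 1 ≤ X := by linarith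
  have hX0 : 0 < X := by linarith
  obtain ⟨M, hM2, hMa, hMb, hMc, hQ1, hMd⟩ := choose_M hX1 hQX
  have hMQ : M ≤ Q := hMd (by omega) (by linarith)
  have hMhalf : M / 2 ≤ Q := (Nat.div_le_self M 2).trans hMQ
  have hQ0 : (1 : ℝ) ≤ Q := by exact_mod_cast hQ1
  have hM0 : (2 : ℝ) ≤ M := by exact_mod_cast hM2
  have key := fun (A : ℝ) (hA0 : 0 ≤ A) (b : (Σ _ : ℕ, ℕ) → ℂ) (hA : ∀ θ ∈ R1 P, ‖b θ‖ ≤ A)
    (T : ℝ) (hT : (T : ℂ) = ∑ θ ∈ R1 P, b θ * hh r V f θ) =>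
    dual4 hX1 hP hQ hQ1 hU hUc hVc hMQ hM2 hMc (dens M (by omega) hMQ) (conn (M / 2) hMhalf)
      hA0 f hf1 b hA hT
  set p1 : (Σ _ : ℕ, ℕ) → Prop := fun θ => (Q : ℝ) ^ 2 ≤ X ^ (2 * a + 6) * ‖hh r V f θ‖ with hp1
  have hXb0 : 0 < X ^ (2 * a + 6) := by positivity
  constructor
  · -- large values
    classical
    set N : ℝ := (((R1 P).filter p1).card : ℝ) with hN
    have hN0 : 0 ≤ N := Nat.cast_nonneg _
    set b : (Σ _ : ℕ, ℕ) → ℂ := fun θ => if p1 θ then conj (hh r V f θ) / (‖hh r V f θ‖ : ℂ) else 0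
      with hb
    have hbn : ∀ θ, p1 θ → ‖b θ‖ = 1 := by
      intro θ hθ
      have h0 : 0 < ‖hh r V f θ‖ := by
        by_contra h
        have h1 : ‖hh r V f θ‖ = 0 := le_antisymm (not_lt.mp h) (norm_nonneg _)
        simp only [hp1, h1, mul_zero] at hθ
        have : (0 : ℝ) < (Q : ℝ) ^ 2 := by positivity
        linarith
      simp only [hb, if_pos hθ]
      rw [norm_div, Complex.norm_conj, Complex.norm_real, norm_norm, div_self h0.ne']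
    have hbn' : ∀ θ, ¬ p1 θ → b θ = 0 := fun θ hθ => by simp only [hb, if_neg hθ]
    have hbh : ∀ θ, p1 θ → b θ * hh r V f θ = (‖hh r V f θ‖ : ℂ) := by
      intro θ hθ
      have h1 := hbn θ hθ
      have h0 : (‖hh r V f θ‖ : ℂ) ≠ 0 := by
        intro h
        simp only [hb, if_pos hθ, h, div_zero, norm_zero] at h1
        exact absurd h1 (by norm_num)
      simp only [hb, if_pos hθ]
      have h2 := normsq_eq (hh r V f θ)
      push_cast at h2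
      rw [div_mul_eq_mul_div, mul_comm, ← h2, sq, mul_div_assoc, div_self h0, mul_one]
    set T : ℝ := ∑ θ ∈ (R1 P).filter p1, ‖hh r V f θ‖ with hT
    have hTc : (T : ℂ) = ∑ θ ∈ R1 P, b θ * hh r V f θ := by
      rw [hT, Finset.sum_filter]
      push_cast
      refine Finset.sum_congr rfl (fun θ _ => ?_)
      by_cases h : p1 θ
      · rw [if_pos h, hbh θ h]
      · rw [if_neg h, hbn' θ h, zero_mul]; simp
    have hS : ∑ θ ∈ R1 P, ‖b θ‖ ^ 2 = N := by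
      rw [hN, Finset.card_filter]
      push_cast
      refine Finset.sum_congr rfl (fun θ _ => ?_)
      by_cases h : p1 θ
      · rw [if_pos h, hbn θ h]; norm_num
      · rw [if_neg h, hbn' θ h]; simp
    have hTl : N * (Q : ℝ) ^ 2 ≤ X ^ (2 * a + 6) * T := by
      rw [hT, Finset.mul_sum, hN, ← nsmul_eq_mul]
      exact Finset.card_nsmul_le_sum _ _ _ (fun θ hθ => (Finset.mem_filter.mp hθ).2)
    have hT0 : 0 ≤ T := Finset.sum_nonneg (fun _ _ => norm_nonneg _)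
    have hA : ∀ θ ∈ R1 P, ‖b θ‖ ≤ 1 := by
      intro θ _
      by_cases h : p1 θ
      · rw [hbn θ h]
      · rw [hbn' θ h]; simp
    by_contra hcon
    rw [not_le] at hcon
    have hXa0 : 0 < X ^ (3 * a + 12) * Q := by positivity
    have hNpos : 0 < N := hXa0.trans hcon
    rcases key 1 zero_le_one b hA T hTc with h | h
    · rw [hS] at h
      have h1 : N ^ 2 * (Q : ℝ) ^ 4 ≤ X ^ (4 * a + 12) * (2 * C1 * X ^ 3 * M * (Q : ℝ) ^ 4 * N) := by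
        calc N ^ 2 * (Q : ℝ) ^ 4 = (N * (Q : ℝ) ^ 2) ^ 2 := by ring
          _ ≤ (X ^ (2 * a + 6) * T) ^ 2 := pow_le_pow_left₀ (by positivity) hTl 2
          _ = X ^ (4 * a + 12) * T ^ 2 := by ring
          _ ≤ _ := mul_le_mul_of_nonneg_left h (by positivity)
      have h2 : N ≤ X ^ (4 * a + 12) * (2 * C1 * X ^ 3 * M) := by
        have h3 : 0 < N * (Q : ℝ) ^ 4 := by positivity
        refine le_of_mul_le_mul_left (le_trans (le_of_eq ?_) (h1.trans (le_of_eq ?_))) h3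
        · ring
        · ring
      have h4 : X ^ (a + 4) * N ≤ X ^ (a + 4) * (X ^ (3 * a + 12) * Q) := by
        calc X ^ (a + 4) * N ≤ X ^ (a + 4) * (X ^ (4 * a + 12) * (2 * C1 * X ^ 3 * M)) :=
              mul_le_mul_of_nonneg_left h2 (by positivity)
          _ = X ^ (4 * a + 12) * X ^ 3 * (2 * C1) * (X ^ (a + 4) * M) := by ring
          _ ≤ X ^ (4 * a + 12) * X ^ 3 * (2 * C1) * (2 * Q) := by gcongr
          _ = X ^ (4 * a + 12) * X ^ 3 * (4 * C1) * Q := by ring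
          _ ≤ X ^ (4 * a + 12) * X ^ 3 * X * Q := by gcongr
          _ = _ := by ring
      have h5 := le_of_mul_le_mul_left h4 (by positivity)
      linarith
    · rw [hS, one_pow, mul_one] at h
      have h1 : M * (N ^ 4 * (Q : ℝ) ^ 8) ≤
          X ^ (8 * a + 24) * (4 * C1 ^ 2 * X ^ 6 * (Q : ℝ) ^ 12 * N) := by
        calc M * (N ^ 4 * (Q : ℝ) ^ 8) = M * (N * (Q : ℝ) ^ 2) ^ 4 := by ring
          _ ≤ M * (X ^ (2 * a + 6) * T) ^ 4 := by gcongr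
          _ = X ^ (8 * a + 24) * (M * T ^ 4) := by ring
          _ ≤ _ := mul_le_mul_of_nonneg_left h (by positivity)
      have h2 : M * N ^ 3 ≤ X ^ (8 * a + 24) * (4 * C1 ^ 2 * X ^ 6 * (Q : ℝ) ^ 4) := by
        have h3 : 0 < N * (Q : ℝ) ^ 8 := by positivity
        refine le_of_mul_le_mul_left (le_trans (le_of_eq ?_) (h1.trans (le_of_eq ?_))) h3
        · ring
        · ring
      have h4 : Q * N ^ 3 ≤ Q * (X ^ (9 * a + 36) * (Q : ℝ) ^ 3) := by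
        calc Q * N ^ 3 ≤ (X ^ (a + 4) * M) * N ^ 3 := by gcongr
          _ = X ^ (a + 4) * (M * N ^ 3) := by ring
          _ ≤ X ^ (a + 4) * (X ^ (8 * a + 24) * (4 * C1 ^ 2 * X ^ 6 * (Q : ℝ) ^ 4)) := by gcongr
          _ = X ^ (a + 4) * X ^ (8 * a + 24) * X ^ 6 * (4 * C1 ^ 2) * (Q : ℝ) ^ 4 := by ring
          _ ≤ X ^ (a + 4) * X ^ (8 * a + 24) * X ^ 6 * (X ^ 2) * (Q : ℝ) ^ 4 := by
              gcongr
              nlinarith
          _ = _ := by ring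
      have h5 := le_of_mul_le_mul_left h4 (by positivity)
      have h6 : N ^ 3 ≤ (X ^ (3 * a + 12) * Q) ^ 3 := h5.trans (le_of_eq (by ring))
      have h7 := (pow_le_pow_iff_left₀ hN0 hXa0.le (by norm_num : 3 ≠ 0)).1 h6
      linarith
  · -- small values
    classical
    set S : ℝ := ∑ θ ∈ (R1 P).filter (fun θ => ¬ p1 θ), ‖hh r V f θ‖ ^ 2 with hSdef
    have hS0 : 0 ≤ S := Finset.sum_nonneg (fun _ _ => by positivity)
    set b : (Σ _ : ℕ, ℕ) → ℂ := fun θ => if ¬ p1 θ then conj (hh r V f θ) else 0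
      with hb
    have hb1 : ∀ θ, ¬ p1 θ → b θ = conj (hh r V f θ) := fun θ hθ => by simp only [hb, if_pos hθ]
    have hb2 : ∀ θ, p1 θ → b θ = 0 := fun θ hθ => by
      simp only [hb]; rw [if_neg (not_not.mpr hθ)]
    have hTc : (S : ℂ) = ∑ θ ∈ R1 P, b θ * hh r V f θ := by
      rw [hSdef, Finset.sum_filter]
      push_cast
      refine Finset.sum_congr rfl (fun θ _ => ?_)
      by_cases h : p1 θ
      · rw [if_neg (not_not.mpr h), hb2 θ h, zero_mul]; simp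
      · rw [if_pos h, hb1 θ h]
        have h2 := normsq_eq (hh r V f θ)
        push_cast at h2 ⊢
        rw [h2, mul_comm]
    have hS : ∑ θ ∈ R1 P, ‖b θ‖ ^ 2 = S := by
      rw [hSdef, Finset.sum_filter]
      refine Finset.sum_congr rfl (fun θ _ => ?_)
      by_cases h : p1 θ
      · rw [if_neg (not_not.mpr h), hb2 θ h]; simp
      · rw [if_pos h, hb1 θ h, Complex.norm_conj]
    have hA : ∀ θ ∈ R1 P, ‖b θ‖ ≤ (Q : ℝ) ^ 2 / X ^ (2 * a + 6) := by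
      intro θ _
      by_cases h : p1 θ
      · rw [hb2 θ h, norm_zero]; positivity
      · rw [hb1 θ h, Complex.norm_conj, le_div_iff₀ hXb0]
        simp only [hp1, not_le] at h
        linarith
    rcases key _ (by positivity) b hA S hTc with h | h
    · rw [hS] at h
      rcases hS0.eq_or_lt with h0 | hSp
      · rw [← h0, mul_zero]; positivity
      have h2 : S ≤ 2 * C1 * X ^ 3 * M * (Q : ℝ) ^ 4 := by
        refine le_of_mul_le_mul_left (le_trans (le_of_eq ?_) (h.trans (le_of_eq ?_))) hSp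
        · ring
        · ring
      have h4 : X ^ 4 * (X ^ a * S) ≤ X ^ 4 * (Q : ℝ) ^ 5 := by
        calc X ^ 4 * (X ^ a * S) ≤ X ^ 4 * (X ^ a * (2 * C1 * X ^ 3 * M * (Q : ℝ) ^ 4)) := by
              gcongr
          _ = X ^ 3 * (2 * C1) * (X ^ (a + 4) * M) * (Q : ℝ) ^ 4 := by ring
          _ ≤ X ^ 3 * (2 * C1) * (2 * Q) * (Q : ℝ) ^ 4 := by gcongr
          _ = X ^ 3 * (4 * C1) * Q ^ 5 := by ring
          _ ≤ X ^ 3 * X * Q ^ 5 := by gcongr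
          _ = _ := by ring
      exact le_of_mul_le_mul_left h4 (by positivity)
    · rw [hS] at h
      rcases hS0.eq_or_lt with h0 | hSp
      · rw [← h0, mul_zero]; positivity
      have h2 : M * S ^ 3 * X ^ (4 * a + 12) ≤ 4 * C1 ^ 2 * X ^ 6 * (Q : ℝ) ^ 16 := by
        refine le_of_mul_le_mul_left (le_trans (le_of_eq ?_)
          ((mul_le_mul_of_nonneg_right h (show 0 ≤ X ^ (4 * a + 12) by positivity)).trans
            (le_of_eq ?_))) hSp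
        · ring
        · rw [div_pow]
          have e : (X ^ (2 * a + 6)) ^ 2 = X ^ (4 * a + 12) := by ring
          rw [e]
          field_simp
      have h4 : (Q * X ^ 12) * (X ^ a * S) ^ 3 ≤ (Q * X ^ 12) * ((Q : ℝ) ^ 5) ^ 3 := by
        calc (Q * X ^ 12) * (X ^ a * S) ^ 3 = Q * (S ^ 3 * X ^ (3 * a + 12)) := by ring
          _ ≤ (X ^ (a + 4) * M) * (S ^ 3 * X ^ (3 * a + 12)) := by gcongr
          _ = X ^ 4 * (M * S ^ 3 * X ^ (4 * a + 12)) := by ring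
          _ ≤ X ^ 4 * (4 * C1 ^ 2 * X ^ 6 * (Q : ℝ) ^ 16) := by gcongr
          _ = X ^ 10 * (4 * C1 ^ 2) * (Q : ℝ) ^ 16 := by ring
          _ ≤ X ^ 10 * X ^ 2 * (Q : ℝ) ^ 16 := by
              gcongr
              nlinarith
          _ = _ := by ring
      have h5 := le_of_mul_le_mul_left h4 (by positivity)
      exact (pow_le_pow_iff_left₀ (by positivity) (by positivity) (by norm_num : 3 ≠ 0)).1 h5

end Vale.Agent.P015.H222
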