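import Vale.Agent.P015.R2.H222.Step

/-! Good primes and the energy step. -/

namespace Vale.Agent.P015.H222

open Finset Vale.Agent.P015 Vale.Agent.P015.Cx Vale.Agent.P006.CLS Vale.Agent.P015.R2.H731
open scoped Pointwise

/-- integer square roots of `-1` -/
noncomputable def rI (p : ℕ) : ℤ := ((root p true).val : ℤ)

theorem rI_cast {p : ℕ} (hp : p.Prime) : ((rI p : ℤ) : ZMod p) = root p true := by
  have : NeZero p := ⟨hp.ne_zero⟩
  rw [rI]
  push_cast
  exact ZMod.natCast_zmod_val _

theorem rts_primes {P : Finset ℕ} (hP : ∀ p ∈ P, p.Prime ∧ p % 4 = 1) : Rts rI P := by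
  intro p hp
  obtain ⟨h1, h2⟩ := hP p hp
  refine ⟨h1, ?_⟩
  rw [← ZMod.intCast_zmod_eq_zero_iff_dvd]
  push_cast
  rw [rI_cast h1]
  have := root_mul_root h1 h2 true
  linear_combination this

/-- coordinates -/
def cd (z : GaussianInt) : ℤ × ℤ := (z.re, z.im)

theorem cd_injective : Function.Injective cd := by
  intro a b h
  simp only [cd, Prod.mk.injEq] at h
  exact Zsqrtd.ext_iff.2 h

theorem im_card_le {p : ℕ} (hp : p.Prime) {S : Finset GaussianInt} {W : Finset (ℤ × ℤ)}
    (hW : W ⊆ S.image cd) : (im rI W p).card ≤ (S.image (phi p (root p true))).card := by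
  apply Finset.card_le_card
  intro x hx
  rw [im, Finset.mem_image] at hx
  obtain ⟨w, hw, rfl⟩ := hx
  obtain ⟨z, hz, rfl⟩ := Finset.mem_image.mp (hW hw)
  rw [Finset.mem_image]
  refine ⟨z, hz, ?_⟩
  rw [phi, lf, cd]
  push_cast
  rw [rI_cast hp]

/-- at every scale most primes are good -/
theorem good_primes {k Q : ℕ} (hQk : Q ≤ k) {R : ℝ} (hR : 1 ≤ R) (hlog : Real.log Q ≤ R)
    {S : Finset GaussianInt}
    (hlt : ∀ p ∈ primesMod 0 k, ∀ b : Bool, (S.image (phi p (root p b))).card < p)
    (hsum : ∑ p ∈ primesMod 0 k, ∑ b : Bool,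
      Real.log p / ((p : ℝ) - (S.image (phi p (root p b))).card) ≤ R)
    (hth : 1 / 4 * (Q : ℝ) ≤ th Q) :
    ∃ P : Finset ℕ, P ⊆ primesMod 0 Q ∧ 1 / (8 * R) * Q ≤ P.card ∧
      ∀ p ∈ P, ((S.image (phi p (root p true))).card : ℝ) ≤ (1 - 1 / (8 * R)) * p := by
  have hR0 : 0 < R := by linarith
  have hsub : primesMod 0 Q ⊆ primesMod 0 k := by
    intro p hp
    rw [mem_primesMod] at *
    exact ⟨⟨hp.1.1, hp.1.2.trans hQk⟩, hp.2⟩
  set good : ℕ → Prop := fun p => ((S.image (phi p (root p true))).card : ℝ) ≤ (1 - 1 / (8 * R)) * p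
    with hgood
  classical
  set P := (primesMod 0 Q).filter good with hP
  set B := (primesMod 0 Q).filter (fun p => ¬ good p) with hB
  have hsplit : th Q = ∑ p ∈ P, Real.log p + ∑ p ∈ B, Real.log p :=
    (Finset.sum_filter_add_sum_filter_not (primesMod 0 Q) good _).symm
  have hBsum : ∑ p ∈ B, Real.log p ≤ (Q : ℝ) / 8 := by
    have h1 : ∀ p ∈ B, Real.log p ≤ (Q : ℝ) / (8 * R) * (∑ b : Bool,
        Real.log p / ((p : ℝ) - (S.image (phi p (root p b))).card)) := by
      intro p hp
      rw [hB, Finset.mem_filter] at hp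
      obtain ⟨hp1, hp2⟩ := hp
      have hpk := hsub hp1
      have hpos : ∀ b : Bool, (0 : ℝ) < (p : ℝ) - (S.image (phi p (root p b))).card := by
        intro b
        have := hlt p hpk b
        rw [sub_pos]
        exact_mod_cast this
      have hlogp : 0 ≤ Real.log p := Real.log_natCast_nonneg p
      rw [Fintype.sum_bool]
      have h2 : 0 ≤ Real.log p / ((p : ℝ) - (S.image (phi p (root p false))).card) :=
        div_nonneg hlogp (hpos false).le
      have h3 : (p : ℝ) - (S.image (phi p (root p true))).card < 1 / (8 * R) * p := by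
        simp only [hgood, not_le] at hp2
        linarith only [hp2]
      have hpQ : (p : ℝ) ≤ Q := by
        have := (mem_primesMod.mp hp1).1.2
        exact_mod_cast this
      have h4 : (p : ℝ) - (S.image (phi p (root p true))).card ≤ (Q : ℝ) / (8 * R) := by
        have : 1 / (8 * R) * (p : ℝ) ≤ 1 / (8 * R) * Q := mul_le_mul_of_nonneg_left hpQ (by positivity)
        have h5 : 1 / (8 * R) * (Q : ℝ) = (Q : ℝ) / (8 * R) := by ring
        linarith only [this, h3, h5]
      have hq0 : 0 ≤ (Q : ℝ) / (8 * R) := by positivity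
      calc Real.log p = ((p : ℝ) - (S.image (phi p (root p true))).card) *
            (Real.log p / ((p : ℝ) - (S.image (phi p (root p true))).card)) := by
            field_simp [(hpos true).ne']
        _ ≤ (Q : ℝ) / (8 * R) *
            (Real.log p / ((p : ℝ) - (S.image (phi p (root p true))).card)) :=
            mul_le_mul_of_nonneg_right h4 (div_nonneg hlogp (hpos true).le)
        _ ≤ _ := mul_le_mul_of_nonneg_left (by linarith only [h2]) hq0
    calc ∑ p ∈ B, Real.log p ≤ ∑ p ∈ B, (Q : ℝ) / (8 * R) * (∑ b : Bool,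
        Real.log p / ((p : ℝ) - (S.image (phi p (root p b))).card)) := Finset.sum_le_sum h1
      _ = (Q : ℝ) / (8 * R) * ∑ p ∈ B, (∑ b : Bool,
        Real.log p / ((p : ℝ) - (S.image (phi p (root p b))).card)) := by rw [Finset.mul_sum]
      _ ≤ (Q : ℝ) / (8 * R) * R := by
          refine mul_le_mul_of_nonneg_left (le_trans ?_ hsum) (by positivity)
          apply Finset.sum_le_sum_of_subset_of_nonneg
          · exact (Finset.filter_subset _ _).trans hsub
          · intro p hp _
            refine Finset.sum_nonneg (fun b _ => div_nonneg (Real.log_natCast_nonneg p) ?_)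
            have := hlt p hp b
            rw [sub_nonneg]
            exact_mod_cast this.le
      _ = (Q : ℝ) / 8 := by field_simp
  refine ⟨P, Finset.filter_subset _ _, ?_, fun p hp => (Finset.mem_filter.mp hp).2⟩
  have h5 : ∑ p ∈ P, Real.log p ≤ P.card * R := by
    rw [← nsmul_eq_mul]
    refine Finset.sum_le_card_nsmul P _ R (fun p hp => ?_)
    have hp1 := mem_primesMod.mp (Finset.mem_filter.mp hp).1
    refine le_trans (Real.log_le_log ?_ ?_) hlog
    · have := hp1.2.1.pos; exact_mod_cast this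
    · exact_mod_cast hp1.1.2
  have h6 : (Q : ℝ) / 8 ≤ P.card * R := by linarith only [h5, hBsum, hsplit, hth]
  have h7 : 1 / (8 * R) * (Q : ℝ) = (Q : ℝ) / 8 / R := by field_simp
  rw [h7, div_le_iff₀ hR0]
  exact h6

end Vale.Agent.P015.H222
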