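import Vale.Agent.P015.R2.H222.Freq

namespace Vale.Agent.P015.H222

open Finset Vale.Agent.P001 Vale.Agent.P006.CLS
open scoped ComplexConjugate Pointwise

/-- exponential sum over a finite set -/
noncomputable def hg (W : Finset (ℤ × ℤ)) (x y : ℝ) : ℂ := ∑ w ∈ W, e2 x y w

theorem e2_zero' (x y : ℝ) : e2 x y 0 = 1 := by
  simp [e2, ee_zero]

theorem e2_sub_freq (x y x' y' : ℝ) (w : ℤ × ℤ) :
    e2 (x - x') (y - y') w = e2 x y w * conj (e2 x' y' w) := by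
  unfold e2
  rw [← ee_sub]
  congr 1
  ring

theorem hg_neg (W : Finset (ℤ × ℤ)) (x y : ℝ) : hg W (-x) (-y) = conj (hg W x y) := by
  rw [hg, hg, map_sum]
  refine Finset.sum_congr rfl (fun w _ => ?_)
  have := e2_sub_freq 0 0 x y w
  rw [zero_sub, zero_sub] at this
  rw [this]
  simp [e2, ee_zero]

theorem norm_hg_symm (W : Finset (ℤ × ℤ)) (x y x' y' : ℝ) :
    ‖hg W (x - x') (y - y')‖ = ‖hg W (x' - x) (y' - y)‖ := by
  rw [← neg_sub x' x, ← neg_sub y' y, hg_neg, Complex.norm_conj]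

theorem norm_hg_le (W : Finset (ℤ × ℤ)) (x y : ℝ) : ‖hg W x y‖ ≤ W.card := by
  rw [hg]
  refine (norm_sum_le _ _).trans ?_
  simp [norm_e2]

theorem sqexp {ι κ : Type*} (R : Finset ι) (x y : ι → ℝ) (b : ι → ℂ) (Z : Finset κ)
    (π : κ → ℤ × ℤ) :
    ∑ z ∈ Z, ‖∑ i ∈ R, b i * e2 (x i) (y i) (π z)‖ ^ 2
      ≤ ∑ i ∈ R, ∑ j ∈ R, ‖b i‖ * ‖b j‖ * ‖∑ z ∈ Z, e2 (x i - x j) (y i - y j) (π z)‖ := by
  have h0 : ((∑ z ∈ Z, ‖∑ i ∈ R, b i * e2 (x i) (y i) (π z)‖ ^ 2 : ℝ) : ℂ)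
      = ∑ i ∈ R, ∑ j ∈ R, b i * conj (b j) * ∑ z ∈ Z, e2 (x i - x j) (y i - y j) (π z) := by
    push_cast
    have h1 : ∀ z : κ, ((‖∑ i ∈ R, b i * e2 (x i) (y i) (π z)‖ : ℂ)) ^ 2
        = ∑ i ∈ R, ∑ j ∈ R, b i * conj (b j) * e2 (x i - x j) (y i - y j) (π z) := by
      intro z
      have := normsq_eq (∑ i ∈ R, b i * e2 (x i) (y i) (π z))
      push_cast at this
      rw [this, map_sum, Finset.sum_mul_sum]
      refine Finset.sum_congr rfl (fun i _ => Finset.sum_congr rfl (fun j _ => ?_))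
      rw [e2_sub_freq, map_mul]
      ring
    simp_rw [h1]
    rw [Finset.sum_comm]
    refine Finset.sum_congr rfl (fun i _ => ?_)
    rw [Finset.sum_comm]
    refine Finset.sum_congr rfl (fun j _ => ?_)
    rw [Finset.mul_sum]
  have h3 : (∑ z ∈ Z, ‖∑ i ∈ R, b i * e2 (x i) (y i) (π z)‖ ^ 2 : ℝ)
      = ‖((∑ z ∈ Z, ‖∑ i ∈ R, b i * e2 (x i) (y i) (π z)‖ ^ 2 : ℝ) : ℂ)‖ := by
    rw [Complex.norm_real, Real.norm_of_nonneg]
    exact Finset.sum_nonneg (fun j _ => by positivity)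
  rw [h3, h0]
  refine (norm_sum_le _ _).trans (Finset.sum_le_sum (fun i _ => ?_))
  refine (norm_sum_le _ _).trans (Finset.sum_le_sum (fun j _ => ?_))
  rw [norm_mul, norm_mul, Complex.norm_conj]

theorem sum_triple (W B : Finset (ℤ × ℤ)) (x y : ℝ) :
    ‖∑ q ∈ W ×ˢ (B ×ˢ B), e2 x y (q.1 + q.2.1 - q.2.2)‖ = ‖hg W x y‖ * ‖hg B x y‖ ^ 2 := by
  have h1 : ∑ q ∈ W ×ˢ (B ×ˢ B), e2 x y (q.1 + q.2.1 - q.2.2)
      = hg W x y * (hg B x y * conj (hg B x y)) := by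
    rw [Finset.sum_product]
    have h2 : ∀ w : ℤ × ℤ, ∑ q ∈ B ×ˢ B, e2 x y (w + q.1 - q.2)
        = e2 x y w * (hg B x y * conj (hg B x y)) := by
      intro w
      rw [Finset.sum_product, hg, map_sum, Finset.sum_mul_sum, Finset.mul_sum]
      refine Finset.sum_congr rfl (fun u _ => ?_)
      rw [Finset.mul_sum]
      refine Finset.sum_congr rfl (fun v _ => ?_)
      rw [e2_sub, e2_add]
      ring
    simp only [h2]
    rw [← Finset.sum_mul]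
    rfl
  rw [h1, norm_mul, norm_mul, Complex.norm_conj, sq]

theorem fiber_lower {κ : Type*} (W : Finset (ℤ × ℤ)) (Z : Finset κ) (π : κ → ℤ × ℤ)
    (g : ℤ × ℤ → ℝ) (hg0 : ∀ w, 0 ≤ g w) {c : ℝ}
    (hc : ∀ w ∈ W, c ≤ ((Z.filter (fun z => π z = w)).card : ℝ)) :
    c * ∑ w ∈ W, g w ≤ ∑ z ∈ Z, g (π z) := by
  classical
  calc c * ∑ w ∈ W, g w = ∑ w ∈ W, c * g w := Finset.mul_sum _ _ _
    _ ≤ ∑ w ∈ W, ((Z.filter (fun z => π z = w)).card : ℝ) * g w :=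
        Finset.sum_le_sum (fun w hw => mul_le_mul_of_nonneg_right (hc w hw) (hg0 w))
    _ = ∑ w ∈ W, ∑ z ∈ Z.filter (fun z => π z = w), g (π z) := by
        refine Finset.sum_congr rfl (fun w _ => ?_)
        rw [← nsmul_eq_mul, ← Finset.sum_const]
        refine Finset.sum_congr rfl (fun z hz => ?_)
        rw [(Finset.mem_filter.mp hz).2]
    _ ≤ ∑ z ∈ Z, g (π z) := by
        rw [← Finset.sum_biUnion]
        · apply Finset.sum_le_sum_of_subset_of_nonneg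
          · intro z hz
            rw [Finset.mem_biUnion] at hz
            obtain ⟨w, _, hz⟩ := hz
            exact (Finset.mem_filter.mp hz).1
          · intro z _ _
            exact hg0 _
        · intro w _ w' _ hne
          rw [Function.onFun, Finset.disjoint_left]
          intro z hz hz'
          exact hne ((Finset.mem_filter.mp hz).2.symm.trans (Finset.mem_filter.mp hz').2)

theorem schur {ι : Type*} (R : Finset ι) (F : ι → ℝ) (G : ι → ι → ℝ) (hG0 : ∀ i j, 0 ≤ G i j)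
    (hsymm : ∀ i j, G i j = G j i) {Γ : ℝ} (hrow : ∀ i ∈ R, ∑ j ∈ R, G i j ≤ Γ) :
    ∑ i ∈ R, ∑ j ∈ R, F i * F j * G i j ≤ Γ * ∑ i ∈ R, F i ^ 2 := by
  have h4 : ∑ i ∈ R, ∑ j ∈ R, F i * F j * G i j
      ≤ ∑ i ∈ R, ∑ j ∈ R, (F i ^ 2 * G i j / 2 + F j ^ 2 * G i j / 2) := by
    refine Finset.sum_le_sum (fun i _ => Finset.sum_le_sum (fun j _ => ?_))
    nlinarith only [mul_nonneg (sq_nonneg (F i - F j)) (hG0 i j)]
  refine h4.trans ?_
  have h5 : ∑ i ∈ R, ∑ j ∈ R, (F i ^ 2 * G i j / 2 + F j ^ 2 * G i j / 2)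
      = ∑ i ∈ R, F i ^ 2 * ∑ j ∈ R, G i j := by
    simp_rw [Finset.sum_add_distrib]
    have h6 : ∑ i ∈ R, ∑ j ∈ R, F j ^ 2 * G i j / 2 = ∑ i ∈ R, ∑ j ∈ R, F i ^ 2 * G i j / 2 := by
      rw [Finset.sum_comm]
      refine Finset.sum_congr rfl (fun i _ => Finset.sum_congr rfl (fun j _ => ?_))
      rw [hsymm]
    rw [h6, ← Finset.sum_add_distrib]
    refine Finset.sum_congr rfl (fun i _ => ?_)
    rw [← Finset.sum_add_distrib, Finset.mul_sum]
    refine Finset.sum_congr rfl (fun j _ => ?_)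
    ring
  rw [h5, Finset.mul_sum]
  refine Finset.sum_le_sum (fun i hi => ?_)
  rw [mul_comm]
  exact mul_le_mul_of_nonneg_right (hrow i hi) (by positivity)

/-- number of representations as a sum -/
def rr (A B : Finset (ℤ × ℤ)) (z : ℤ × ℤ) : ℕ := ((A ×ˢ B).filter (fun q => q.1 + q.2 = z)).card

theorem sum_rr (A B : Finset (ℤ × ℤ)) (f : ℤ × ℤ → ℂ) :
    ∑ z ∈ A + B, (rr A B z : ℂ) * f z = ∑ q ∈ A ×ˢ B, f (q.1 + q.2) := by
  have h := Finset.sum_comp (s := A ×ˢ B) f (fun q => q.1 + q.2)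
  simp only [nsmul_eq_mul] at h
  rw [h]
  rfl

theorem sum_rr_card (A B : Finset (ℤ × ℤ)) :
    ∑ z ∈ A + B, rr A B z = A.card * B.card := by
  have h := sum_rr A B (fun _ => 1)
  simp only [mul_one, Finset.sum_const, Finset.card_product, nsmul_eq_mul] at h
  exact_mod_cast h

/-- additive energy -/
def en (W : Finset (ℤ × ℤ)) : ℕ := ∑ z ∈ W + W, rr W W z ^ 2

theorem hg_mul (A B : Finset (ℤ × ℤ)) (x y : ℝ) :
    hg A x y * hg B x y = ∑ z ∈ A + B, (rr A B z : ℂ) * e2 x y z := by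
  rw [sum_rr, hg, hg, Finset.sum_mul_sum, Finset.sum_product]
  refine Finset.sum_congr rfl (fun u _ => Finset.sum_congr rfl (fun v _ => ?_))
  rw [e2_add]

/-- large sieve for a product of exponential sums -/
theorem ls_mul {ι : Type*} (R : Finset ι) (x y : ι → ℝ) {δ : ℝ} (hδ : 0 < δ)
    (hδ1 : δ ≤ 1) (hsep : Sep R x y δ) (L : ℕ) (A B : Finset (ℤ × ℤ))
    (hT : ∀ w ∈ A + B, w ∈ box L) :
    ∑ i ∈ R, (‖hg A (x i) (y i)‖ * ‖hg B (x i) (y i)‖) ^ 2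
      ≤ C0 * ((L : ℝ) + 1 / δ) ^ 2 * ∑ z ∈ A + B, (rr A B z : ℝ) ^ 2 := by
  have h := primal_ls R x y hδ hδ1 hsep L 0 (A + B) (by simpa using hT) (fun z => (rr A B z : ℂ))
  simp only [Complex.norm_natCast] at h
  refine le_trans (le_of_eq ?_) h
  refine Finset.sum_congr rfl (fun i _ => ?_)
  rw [← norm_mul, hg_mul]

end Vale.Agent.P015.H222
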