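import Vale.Agent.P015.R2.H222.EnergyA
import Vale.Agent.P015.R2.H731.Glue

/-! The energy step: the walk before it leaves a box has large additive energy. -/

namespace Vale.Agent.P015.H222

open Finset Vale.Agent.P015 Vale.Agent.P015.Cx Vale.Agent.P006.CLS Vale.Agent.P015.R2.H731
open scoped Pointwise

theorem en_eq (W : Finset (ℤ × ℤ)) : en W = Finset.addEnergy W W := by
  rw [Finset.addEnergy_eq_sum_sq', en]
  rfl

section Path

variable {h : ℕ → ℤ × ℤ} {D : ℝ} {k : ℕ}

/-- steps are bounded -/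
def Lip (h : ℕ → ℤ × ℤ) (D : ℝ) (k : ℕ) : Prop :=
  ∀ a b, a ≤ b → b ≤ k → |(((h b).1 : ℤ) : ℝ) - (h a).1| ≤ D * ((b - a : ℕ) : ℝ) ∧
    |(((h b).2 : ℤ) : ℝ) - (h a).2| ≤ D * ((b - a : ℕ) : ℝ)

theorem lip_box (hl : Lip h D k) {a b m : ℕ} (hab : a ≤ b) (hb : b ≤ k)
    (hout : h b - h a ∉ box m) : (m : ℝ) < D * ((b - a : ℕ) : ℝ) := by
  by_contra hcon
  rw [not_lt] at hcon
  obtain ⟨h1, h2⟩ := hl a b hab hb
  apply hout
  rw [mem_box]
  simp only [Prod.fst_sub, Prod.snd_sub]
  have h3 := abs_le.mp (h1.trans hcon)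
  have h4 := abs_le.mp (h2.trans hcon)
  refine ⟨⟨?_, ?_⟩, ?_, ?_⟩
  · exact_mod_cast h3.1
  · exact_mod_cast h3.2
  · exact_mod_cast h4.1
  · exact_mod_cast h4.2

theorem lip_box' (hl : Lip h D k) {a b m : ℕ} (hab : a ≤ b) (hb : b ≤ k)
    (hout : h a - h b ∉ box m) : (m : ℝ) < D * ((b - a : ℕ) : ℝ) :=
  lip_box hl hab hb (fun h' => hout (box_symm h'))

theorem local_path (hl : Lip h D k) (hinj : ∀ a ≤ k, ∀ b ≤ k, h a = h b → a = b) (hD : 0 ≤ D)
    (h0 : h 0 = 0) {τ K : ℕ} (hτ : τ ≤ k) (hout : h τ ∉ box K) {w : ℤ × ℤ}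
    (hw : w ∈ (range τ).image h) {m : ℕ} (hm : 8 * m ≤ K) :
    (m : ℝ) ≤ D * ((((range τ).image h).filter (fun u => u - w ∈ box m)).card : ℝ) := by
  obtain ⟨t, ht, rfl⟩ := Finset.mem_image.mp hw
  rw [Finset.mem_range] at ht
  have hcard : ∀ I : Finset ℕ, (∀ i ∈ I, i < τ ∧ h i - h t ∈ box m) →
      I.card ≤ (((range τ).image h).filter (fun u => u - h t ∈ box m)).card := by
    intro I hI
    apply Finset.card_le_card_of_injOn h
    · intro i hi
      rw [Finset.mem_coe, Finset.mem_filter]
      exact ⟨Finset.mem_image_of_mem _ (Finset.mem_range.mpr (hI i hi).1), (hI i hi).2⟩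
    · intro i hi j hj hij
      have h1 := (hI i hi).1
      have h2 := (hI j hj).1
      exact hinj i (by omega) j (by omega) hij
  by_cases hA : ∃ s, s < t ∧ h s - h t ∉ box m
  · set I := (range t).filter (fun s => h s - h t ∉ box m) with hI
    have hIne : I.Nonempty := by
      obtain ⟨s, hs1, hs2⟩ := hA
      exact ⟨s, by rw [hI, Finset.mem_filter, Finset.mem_range]; exact ⟨hs1, hs2⟩⟩
    set s := I.max' hIne with hs
    have hsI : s ∈ I := Finset.max'_mem I hIne
    rw [hI, Finset.mem_filter, Finset.mem_range] at hsI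
    have h1 := lip_box' hl hsI.1.le (by omega) hsI.2
    have h2 := hcard (Finset.Ioc s t) (by
      intro i hi
      rw [Finset.mem_Ioc] at hi
      refine ⟨by omega, ?_⟩
      by_contra hcon
      rcases Nat.lt_or_ge i t with h3 | h3
      · have h4 : i ∈ I := by rw [hI, Finset.mem_filter, Finset.mem_range]; exact ⟨h3, hcon⟩
        have h5 := Finset.le_max' I i h4
        omega
      · have h4 : i = t := by omega
        rw [h4, sub_self] at hcon
        apply hcon
        rw [mem_box]; simp)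
    rw [Nat.card_Ioc] at h2
    have h3 : ((t - s : ℕ) : ℝ) ≤ ((((range τ).image h).filter (fun u => u - h t ∈ box m)).card : ℝ) := by
      exact_mod_cast h2
    exact h1.le.trans (mul_le_mul_of_nonneg_left h3 hD)
  · push Not at hA
    have h0t : h 0 - h t ∈ box m := by
      rcases Nat.eq_zero_or_pos t with h1 | h1
      · rw [h1, sub_self, mem_box]; simp
      · exact hA 0 h1
    have hτt : h τ - h t ∉ box m := by
      intro hcon
      apply hout
      rw [mem_box] at *
      rw [h0] at h0t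
      simp only [Prod.fst_sub, Prod.snd_sub, Prod.fst_zero, Prod.snd_zero] at *
      have h8 : 8 * (m : ℤ) ≤ K := by exact_mod_cast hm
      omega
    have hex : ∃ s, t < s ∧ h s - h t ∉ box m := ⟨τ, ht, hτt⟩
    classical
    set s := Nat.find hex with hs
    have hs1 := Nat.find_spec hex
    have hsτ : s ≤ τ := Nat.find_min' hex ⟨ht, hτt⟩
    have h1 := lip_box hl hs1.1.le (by omega) hs1.2
    have h2 := hcard (Finset.Ico t s) (by
      intro i hi
      rw [Finset.mem_Ico] at hi
      refine ⟨by omega, ?_⟩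
      by_contra hcon
      rcases Nat.lt_or_ge t i with h3 | h3
      · exact Nat.find_min hex (hs ▸ hi.2) ⟨h3, hcon⟩
      · have h4 : i = t := by omega
        rw [h4, sub_self] at hcon
        apply hcon
        rw [mem_box]; simp)
    rw [Nat.card_Ico] at h2
    have h3 : ((s - t : ℕ) : ℝ) ≤ ((((range τ).image h).filter (fun u => u - h t ∈ box m)).card : ℝ) := by
      exact_mod_cast h2
    exact h1.le.trans (mul_le_mul_of_nonneg_left h3 hD)

theorem card_box (K : ℕ) : (box K).card = (2 * K + 1) ^ 2 := by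
  unfold Vale.Agent.P006.CLS.box
  rw [Finset.card_product, Int.card_Icc]
  have : ((K : ℤ) + 1 - (-(K : ℤ))).toNat = 2 * K + 1 := by omega
  rw [this, sq]

/-- the sub-walk before leaving the box of side `Q ^ 2` -/
theorem exists_sub (hl : Lip h D k) (hinj : ∀ a ≤ k, ∀ b ≤ k, h a = h b → a = b) (hD : 0 ≤ D)
    (h0 : h 0 = 0) {K : ℕ} (hK : (2 * K + 1) ^ 2 ≤ k) :
    ∃ W : Finset (ℤ × ℤ), W ⊆ (range (k + 1)).image h ∧ (∀ w ∈ W, w ∈ box K) ∧
      (K : ℝ) ≤ D * W.card ∧ ∀ w ∈ W, ∀ m : ℕ, 8 * m ≤ K →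
        (m : ℝ) ≤ D * ((W.filter (fun u => u - w ∈ box m)).card : ℝ) := by
  have hex : ∃ t, t ≤ k ∧ h t ∉ box K := by
    by_contra hcon
    push Not at hcon
    have h1 : (range (k + 1)).card ≤ (box K).card := by
      apply Finset.card_le_card_of_injOn h
      · intro t ht
        rw [Finset.mem_coe, Finset.mem_range] at ht
        exact hcon t (by omega)
      · intro a ha b hb hab
        rw [Finset.mem_coe, Finset.mem_range] at ha hb
        exact hinj a (by omega) b (by omega) hab
    rw [Finset.card_range, card_box] at h1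
    omega
  classical
  set τ := Nat.find hex with hτdef
  obtain ⟨hτ, hout⟩ := Nat.find_spec hex
  refine ⟨(range τ).image h, ?_, ?_, ?_, ?_⟩
  · apply Finset.image_subset_image
    intro t ht
    rw [Finset.mem_range] at *
    omega
  · intro w hw
    obtain ⟨t, ht, rfl⟩ := Finset.mem_image.mp hw
    rw [Finset.mem_range] at ht
    by_contra hcon
    exact Nat.find_min hex ht ⟨by omega, hcon⟩
  · have hc : ((range τ).image h).card = τ := by
      rw [Finset.card_image_of_injOn, Finset.card_range]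
      intro a ha b hb hab
      rw [Finset.mem_coe, Finset.mem_range] at ha hb
      exact hinj a (by omega) b (by omega) hab
    rw [hc]
    have h1 := lip_box (m := K) hl (Nat.zero_le τ) hτ (by rw [h0, sub_zero]; exact hout)
    rw [Nat.sub_zero] at h1
    exact h1.le
  · intro w hw m hm
    exact local_path hl hinj hD h0 hτ hout hw hm

end Path

end Vale.Agent.P015.H222
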